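import Vale.Agent.P014Y.Md.D0
import Vale.Agent.P014Y.Mu.Lev
import Vale.Agent.P014Y.Mu.Big
import Vale.Agent.P014Y.Mu.Url

/-! # P014Y, block MD, row LEV1: from the residual groups to all levels -/

set_option autoImplicit false
set_option linter.all false

noncomputable section

namespace Vale.Agent.P014Y.Md

open NumberField Matrix
open scoped Pointwise
open Vale.Agent.P022 (Qb GQ)
open Vale.Agent.P027M.S (Inert)
open Vale.Agent.P022D.W (dec inP_le_dec phi_mem conj_inP)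
open Vale.Agent.P022E.GW (Ov Fb)
open Vale.Agent.P014U
open L2 (W M2)
open P004S (nu)
open Mu Mu.Lv

variable [Pp]

/-- the value at a Frobenius element of degree zero -/
theorem l3_val {a : GQ →* M2} {ε : GQ → F} {P : Ideal (𝓞 Qb)} {x y z : X} {l : ℕ} {t φ : GQ}
    (L : L3 a ε (dec P) x y z) (o : Ov l P) (md : l % pp = 1) (un : ∀ i, Inert P i → a i = 1)
    (i : Inert P t) (f : Fb l P φ) (e0 : ε φ = 0) : ε t • x φ = a φ *ᵥ y t - y t := by
  obtain ⟨n, k, -⟩ := dec_gz o md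
  have d : ∀ {g}, Inert P g → g ∈ dec P := fun i => inP_le_dec i
  have s := phi_mem o.1 o.2.1 f
  obtain ⟨U, p, q⟩ := L.opn
  have c0 : ∀ g j, Inert P g → Inert P j → x (g * j) = x g + x j := fun g j s t => by
    rw [L.c0 g (d s) j (d t), un g s, one_mulVec]
  obtain ⟨n1, e1⟩ := tame (f := ε) o n (fun g j s t => L.ad g (d s) j (d t)) p
    fun w m b => (q w m b).1
  obtain ⟨n2, e2⟩ := tame (f := x) o n c0 p fun w m b => (q w m b).2.1
  obtain ⟨n3, e3⟩ := tame (f := fun g => (2 : F) • y g - ε g • x g) o n (fun g j s t => by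
    simp only [L.c1 g (d s) j (d t), un g s, one_mulVec, c0 g j s t, L.ad g (d s) j (d t), e1 g s,
      e1 j t, e2 g s, e2 j t, smul_eq_mul]
    module) p fun w m b => by simp [q w m b]
  have i' := conj_inP s i
  have a1 := e1 _ i'
  have a2 := e2 _ i'
  have a3 := e3 _ i'
  rw [k φ s t i] at a1 a2 a3
  rw [← e1 t i] at a1
  rw [← e2 t i] at a2
  rw [← e3 t i, a1, a2, sub_left_inj] at a3
  have a4 := L.c1 _ (d i') φ s
  rw [inv_mul_cancel_right, L.c1 φ s t (d i), e0, un _ i', a1,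
    smul_right_injective _ two_ne a3, zero_smul, add_zero, one_mulVec] at a4
  linear_combination -a4

/-- **row LEV1**, with the words unfolded -/
theorem lev0 (a : GQ →* M2) (S : Finset ℕ) (Γ : Subgroup GQ) (r : Rs a S) (N c : ℕ) (χ : GQ → ℕ)
    (Q : Finset ℕ) (σ : ℕ → GQ) (P : Ideal (𝓞 Qb)) (n : 0 < N) (h : Ly Γ S N c χ) (o : Ov pp P)
    (qc : ∀ q ∈ Q, q ∣ c ∧ (∃ P, Ov q P ∧ Fb q P (σ q)) ∧ a (σ q) = 1 ∧
      ∀ g, pp ∣ χ (g * σ q * g⁻¹))
    (tz : ∀ q : ℕ, q.Prime → q ∣ c → q ∈ Q ∨ Tz a q) (kk : Kk1 a Γ S Q σ P) (J : ℕ)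
    (hJ : J ≤ pp ^ N) : ∀ x ∈ Zx a Γ (S ∪ c.primeFactors) J χ P, ∀ g, tb J ^ 4 • x g = 0 :=
  h.lev n r o (fun x y z L u b => by
    have un : ∀ {q P}, Ov q P → q ∣ c → ∀ i, Inert P i → a i = 1 := fun o d i b =>
      r.unr i ⟨_, (h.out _ o.1 d).1, _, o, b⟩
    refine kk x L.cl (fun g m ⟨l, k, P, o, i⟩ => ?_)
      (fun l m ne P o => Gw.ur_lag dim url r.toR0 o ne ▸ h.ot n r.toR0 L o m) (fun q m g => ?_) b
      fun P o => h.ot n r.toR0 L o r.pm
    · by_cases d : l ∣ c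
      · exact Lv.un_nf (L.mono ((h.out l o.1 d).2.1 P o)).cl o (h.md n o.1 d) (un o d)
          (nf_tz r.toR0 ((tz l o.1 d).resolve_left fun e => k (by simp [e])) o (h.md n o.1 d)) i
      · exact u g m ⟨l, fun e => (Finset.mem_union.1 e).elim (fun e => k (by simp [e]))
          fun e => d (Nat.dvd_of_mem_primeFactors e), P, o, i⟩
    · obtain ⟨d, ⟨P, o, f⟩, e1, e2⟩ := qc q m
      have o' := Ds.ov_sm o g
      obtain ⟨t, i, e⟩ := h.tau n o' d
      have := l3_val (L.mono ((h.out q o.1 d).2.1 _ o')) o' (h.md n o.1 d) (un o' d) i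
        (Ds.fb_sm f g) ((ZMod.natCast_eq_zero_iff _ _).2 (e2 g))
      rwa [e, one_smul, show a (g * σ q * g⁻¹) = 1 from
        (inferInstance : a.ker.Normal).conj_mem _ e1 g, one_mulVec, sub_self] at this) hJ

end Vale.Agent.P014Y.Md
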