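import Vale.Agent.P014Y.Mu.Cv0

/-! # P014Y, block MD: all linear values of cocycles (group theory) -/

set_option autoImplicit false
set_option linter.all false

open Matrix

namespace Vale.Agent.P014Y.Md.Su

open Vale.Agent.P014U.Mu.Sa Mu.Cv

variable {p : ℕ} [Fact p.Prime] {G ι : Type} [Group G]

/-- the joint image spans the product of the matrix algebras -/
def Dn (a : ι → G →* Matrix (Fin 2) (Fin 2) (ZMod p)) : Prop :=
  ∀ A : ι → Matrix (Fin 2) (Fin 2) (ZMod p),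
    A ∈ Submodule.span (ZMod p) (Set.range fun g i => a i g)

variable {a : ι → G →* Matrix (Fin 2) (Fin 2) (ZMod p)}

/-- **all linear maps which kill the coboundaries are values** -/
theorem full [Finite ι] (p2 : p ≠ 2) (Z : ι → Submodule (ZMod p) (G → Fin 2 → ZMod p))
    (fin : ∀ i, Module.Finite (ZMod p) (Z i)) (hz : ∀ i, ∀ z ∈ Z i, Z1 (a i) z) (dn : Dn a)
    {U : Subgroup G} (n : U.Normal) {c : G} (hc : c ∈ U) (e : ∀ i, a i c = -1)
    (φ : ι → (G → Fin 2 → ZMod p) →ₗ[ZMod p] Fin 2 → ZMod p)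
    (hφ : ∀ i z, B1 (a i) z → φ i z = 0) :
    ∃ g ∈ U, (∀ i, a i g = 1) ∧ ∀ i, ∀ z ∈ Z i, z g = φ i z := by
  classical
  have := Fintype.ofFinite ι
  have hz' (j : Σ i, Z i) : Z1 ((fun j : Σ i, Z i => a j.1) j) ((fun j : Σ i, Z i => j.2.1) j) :=
    hz j.1 _ j.2.2
  have st (A : ι → Matrix (Fin 2) (Fin 2) (ZMod p)) v (m : v ∈ vl hz' U) :
      (fun j => A j.1 *ᵥ v j) ∈ vl hz' U := by
    induction dn A using Submodule.span_induction with
    | mem _ h => obtain ⟨g, rfl⟩ := h; exact vl_st hz' n g m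
    | zero => simp only [Pi.zero_apply, zero_mulVec]; exact zero_mem _
    | add x y _ _ h k => simp only [Pi.add_apply, add_mulVec]; exact add_mem h k
    | smul s x _ h => simp only [Pi.smul_apply, smul_mulVec]; exact ZMod.smul_mem h s
  have k i (r : Fin 2) : ∃ v ∈ vl hz' U, ∀ z : Z i, v ⟨i, z⟩ 0 = φ i z r := by
    have := fin i
    have q := FiniteDimensional.mem_span_of_iInf_ker_le_ker
      (L := fun g : {g // g ∈ U ∧ ∀ i, a i g = 1} => ((LinearMap.proj 0 ∘ₗ LinearMap.proj g.1 :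
        (G → Fin 2 → ZMod p) →ₗ[ZMod p] ZMod p) ∘ₗ (Z i).subtype))
      (K := (LinearMap.proj r ∘ₗ φ i) ∘ₗ (Z i).subtype) fun z m => by
        have m0 v (h : v ∈ vl hz' U) : v ⟨i, z⟩ 0 = 0 := by
          obtain ⟨g, u, f, h⟩ := h
          rw [← h]
          exact (Submodule.mem_iInf _).1 m ⟨g, u, fun j => f ⟨j, 0⟩⟩
        have m1 g (u : g ∈ U) (f : ∀ j, a j g = 1) : z.1 g = 0 := by
          have h : (fun j : Σ i, Z i => j.2.1 g) ∈ vl hz' U := ⟨g, u, fun j => f j.1, fun _ => rfl⟩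
          funext s
          fin_cases s
          · exact m0 _ h
          · simpa [mulVec, dotProduct] using m0 _ (st (fun _ => !![0, 1; 0, 0]) _ h)
        show φ i z r = 0
        rw [hφ i z (sah0 (hz i _ z.2) (z := c) (s := -1) (by simp [e]) (neg_ne p2) fun g =>
          m1 _ ?_ fun j => ?_), Pi.zero_apply]
        · rw [_root_.mul_inv_rev, mul_assoc, ← mul_assoc g⁻¹]
          exact mul_mem (inv_mem hc) (by simpa using n.conj_mem c hc g⁻¹)
        · rw [map_mul, show a j (c * g) = a j (g * c) by simp [e], ← map_mul, inv_mul_cancel,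
            map_one]
    suffices ∀ K : Z i →ₗ[ZMod p] ZMod p, K ∈ Submodule.span (ZMod p) _ →
      ∃ v ∈ vl hz' U, ∀ z : Z i, v ⟨i, z⟩ 0 = K z from this _ q
    intro K m
    induction m using Submodule.span_induction with
    | mem _ h =>
      obtain ⟨g, rfl⟩ := h
      exact ⟨fun j => j.2.1 g.1, ⟨g, g.2.1, fun j => g.2.2 j.1, fun _ => rfl⟩, fun _ => rfl⟩
    | zero => exact ⟨0, zero_mem _, fun _ => rfl⟩
    | add x y _ _ h k =>
      obtain ⟨v, m, h⟩ := h
      obtain ⟨w, m', k⟩ := k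
      exact ⟨v + w, add_mem m m', fun z => by simp [h, k]⟩
    | smul s x _ h =>
      obtain ⟨v, m, h⟩ := h
      exact ⟨s • v, ZMod.smul_mem m s, fun z => by simp [h]⟩
  choose v m hv using k
  obtain ⟨g, u, f, h⟩ := sum_mem (t := Finset.univ) fun i _ => sum_mem (t := Finset.univ)
    fun r _ => st (Pi.single i (Matrix.single r 0 1)) _ (m i r)
  refine ⟨g, u, fun j => f ⟨j, 0⟩, fun i z mz => (h ⟨i, z, mz⟩).trans ?_⟩
  rw [Finset.sum_apply, Finset.sum_eq_single i (fun j _ ji => by simp [Pi.single_eq_of_ne' ji])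
    (by simp)]
  funext s
  fin_cases s <;> simp [mulVec, dotProduct, Matrix.single, hv]

/-- the same in a coset -/
theorem full' [Finite ι] (p2 : p ≠ 2) (Z : ι → Submodule (ZMod p) (G → Fin 2 → ZMod p))
    (fin : ∀ i, Module.Finite (ZMod p) (Z i)) (hz : ∀ i, ∀ z ∈ Z i, Z1 (a i) z) (dn : Dn a)
    {U : Subgroup G} (n : U.Normal) {c : G} (hc : c ∈ U) (e : ∀ i, a i c = -1)
    (φ : ι → (G → Fin 2 → ZMod p) →ₗ[ZMod p] Fin 2 → ZMod p)
    (hφ : ∀ i z, B1 (a i) z → φ i z = 0) {u : G} (hu : ∀ i, a i u = 1) :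
    ∃ g ∈ U, (∀ i, a i g = 1) ∧ ∀ i, ∀ z ∈ Z i, z (u * g) = φ i z := by
  obtain ⟨g, m, f, h⟩ := full p2 Z fin hz dn n hc e (fun i => φ i - LinearMap.proj u)
    fun i z b => by
      obtain ⟨v, q⟩ := id b
      simp [hφ i z b, q, hu]
  exact ⟨g, m, f, fun i z mz => by simp [hz i z mz u g, h i z mz, hu]⟩

end Vale.Agent.P014Y.Md.Su
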