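import Vale.Agent.P014Y.Md.K0
import Vale.Agent.P014Y.Md.Sup0
import Vale.Agent.P014Y.Mu.Loc
import Vale.Agent.P014Y.Mu.Chv

/-! # P014Y, block MD: the supply of primes with trivial Frobenius element -/

set_option autoImplicit false
set_option linter.all false

noncomputable section

namespace Vale.Agent.P014Y.Md.Su

open NumberField Matrix
open Vale.Agent.P022 (Qb GQ)
open Vale.Agent.P022E.GW (Ov Fb)
open Vale.Agent.P022K.G2 (In Lv)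
open Vale.Agent.P014U
open L2 (W M2)
open X4S (Pl Rp Rep)
open P014U.Mu.Sa (Z1 B1)
open P014T.Dr (Hm Hm_le Hm_open inert_Hm)
open P014Y.F (Crv Fld)
open Top (Pr)
open P014Y.Mu P014Y.Mu.Cv

section

variable [Pp]

/-- **the supply of primes**: the Frobenius element is put into a given normal subgroup -/
theorem supply {ι : Type} [Finite ι] {a : ι → GQ →* M2} (pl : Pl) {S S₀ : Finset ℕ} {r : Rp}
    (h : ∀ i, Rs (a i) S) (dn : Dn a) (hr : Rep r S₀)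
    (hd : ∀ g ∈ Hm pp, ‖X4S.ep r g - 1‖ ≤ 1 / pp) {k : GQ} (bk : X4F.En.Big r k)
    (k1 : ∀ i, a i k = 1) : ∃ m, ∀ (n : ℕ) (U : Subgroup GQ) (E : Finset ℕ),
    U.Normal → IsOpen (U : Set GQ) → In E ⊆ U → U ≤ Hm (pp ^ (n + 1)) → k ∈ U →
    (∃ c ∈ U, ∀ i, a i c = -1) → Sp2 a pl fun q => q.Prime ∧ q ∉ E ∧
      q ∉ S ∧ q ∉ S₀ ∧ q % pp ^ (n + 1) = 1 ∧ X4F.En.Gq r m (pl.σ q) ∧
      pl.σ q ∈ U ∧ ∀ i, a i (pl.σ q) = 1 := by
  classical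
  obtain ⟨m, hm⟩ := bk.gq hr pp_ne
  refine ⟨m, fun n U E nU oU iU le hk ⟨c, hc, ec⟩ T hT φ hφ => ?_⟩
  have co i z (hz : z ∈ Zg (a i) T) : Z1 (a i) z := fun g g' => hz.1 g trivial g' trivial
  obtain ⟨g, gU, g1, gz⟩ := full pp_ne_two (fun i => Zg (a i) T) (fun i => Lo.zg_fin (hT i)) co dn
    nU hc ec φ fun i z ⟨v, e⟩ => hφ i ⟨v, fun g _ => e g⟩
  have fi i : Finite (Zg (a i) T) :=
    have := Lo.zg_fin (hT i)
    Module.finite_of_finite F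
  choose V lV hV using fun j : Σ i, Zg (a i) T => j.2.2.2.2
  have m1 : g ∈ Hm (pp ^ (n + 1)) := le gU
  obtain ⟨j, -, hj⟩ := hm g (hd _ (Hm_le (dvd_pow_self _ n.succ_ne_zero) m1))
  have kU := pow_mem hk (pp * j)
  have ka i : a i (k ^ (pp * j)) = 1 := by rw [map_pow, k1, one_pow]
  have kz i z hz := z_pp (co i z hz) (k1 i) j
  generalize k ^ (pp * j) = κ at *
  have oV : IsOpen ((⨅ j : Σ i, Zg (a i) T, (a j.1).ker ⊓ V j : Subgroup GQ) : Set GQ) := by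
    rw [Subgroup.coe_iInf]
    exact isOpen_iInter_of_finite fun j => (h j.1).opn.inter (lV j).opn
  obtain ⟨q, hq, qT, v, ⟨⟨b1, b2⟩, b3⟩, fr⟩ := ex_fr
    (O := U ⊓ hr.Kn (m + 1) ⊓ ⨅ j : Σ i, Zg (a i) T, (a j.1).ker ⊓ V j)
    ((oU.inter (hr.Kn_open _)).inter oV) (g * κ) (E ∪ S ∪ S₀ ∪ T)
  simp only [Finset.mem_union, not_or] at qT
  obtain ⟨⟨⟨qE, qS⟩, q0⟩, qT⟩ := qT
  have b4 := Subgroup.mem_iInf.1 b3
  have ov := pl.ov q hq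
  obtain ⟨x, s, hs, e⟩ := P004R.Wr.fb_cj ov (pl.fb q hq) fr
  have iE : s ∈ U := iU ⟨q, qE, _, ov, hs⟩
  have iS i : a i s = 1 := (h i).unr s ⟨q, qS, _, ov, hs⟩
  have e2 : s * pl.σ q = x⁻¹ * (g * κ * v) * x⁻¹⁻¹ := by rw [e]; group
  have av i : a i v = 1 := (b4 ⟨i, 0⟩).1
  have a1 i : a i (g * κ * v) = 1 := by rw [map_mul, map_mul, g1, ka, av, mul_one, mul_one]
  obtain ⟨Q, p1, p2, f⟩ := fr
  refine ⟨q, qT, ⟨hq, qE, qS, q0, P014U.Mu.Cb.fb_mod ⟨hq, p1, p2⟩ (hr.ne_two q0) f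
    (mul_mem (mul_mem m1 (le kU)) (le b1)), ?_, (mul_mem_cancel_left iE).1
      (e2 ▸ nU.conj_mem _ (mul_mem (mul_mem gU kU) b1) _), fun i => ?_⟩, fun i z hz => ?_⟩
  · have := (hj.mul hr b2).conj x⁻¹
    rwa [← e2, X4F.En.Gq, X4S.ep, X4S.mt_mul, hr.mt_inert ov q0 hs, one_mul] at this
  · have : a i (s * pl.σ q) = 1 := e2 ▸ (a i).normal_ker.conj_mem _ (a1 i) _
    rwa [map_mul, iS, one_mul] at this
  · have := (co i z hz).cj (a1 i) x⁻¹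
    rw [← e2, co i z hz, iS, one_mulVec, Lo.zg_in hz ⟨q, qT, _, ov, hs⟩, zero_add, co i z hz,
      co i z hz, gz i z hz, kz i z hz,
      show z v = 0 from hV ⟨i, z, hz⟩ v trivial (b4 ⟨i, z, hz⟩).2, mulVec_zero, mulVec_zero, add_zero, add_zero] at this
    rw [this]
    exact ⟨inj (a i) _, fun c => by rw [c, mulVec_zero]⟩

theorem mono {ι : Type} {a : ι → GQ →* M2} {pl : Pl} {G G' : ℕ → Prop} (h : Sp2 a pl G)
    (k : ∀ q, G q → G' q) : Sp2 a pl G' := fun T r φ f =>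
  let ⟨q, n, g, z⟩ := h T r φ f; ⟨q, n, k q g, z⟩

end

/-- **the supply for the curve**: any family which is trivial where the curve is -/
theorem sup {ι : Type} [Finite ι] {a : ι → GQ →* M2} {e : Crv} (b : Fld e) (pl : Pl)
    (rs : ∀ i, Rs (a i) (Sd b)) (dn : Dn a) (k1 : ∀ g ∈ b.Γ, rb e g = 1 → ∀ i, a i g = 1)
    (hc : ∀ n, ∃ c ∈ b.Γ ⊓ Hm (pp ^ (n + 1)), ∀ i, a i c = -1) : ∃ m : ℕ, ∀ n E,
    Sp2 a pl fun q => Gt b n E q ∧ Gq e m q ∧ pl.σ q ∈ b.Γ ∧ ∀ i, U1 (a i) pl (Sd b) q := by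
  classical
  obtain ⟨k, k0, k2, k3⟩ := b.ex_big
  obtain ⟨m, hm⟩ := supply pl rs dn e.rep (fun g m => by
      have := (PadicInt.norm_lt_one_iff_dvd _).2 ((dvd_pow_self _ one_ne_zero).trans
        (Pg.Hm_two.1 (pow_one pp ▸ m : g ∈ Hm (pp ^ 1))))
      rw [← X4S.lt_one_iff, show X4S.ep e.rp g = ((e.r g).det : ℤ_[pp]) from
        (RingHom.map_det PadicInt.Coe.ringHom _).symm, Crv.r, X4M.TE.det_cyc]
      exact this) k2 (k1 k k0 (e.tr_one.1 (k2.tr.mono (by norm_num))))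
  refine ⟨2 * m + 1, fun n E T hT φ hφ => ?_⟩
  have p0 := pow_ne_zero (n + 1) pp_ne
  have pm : pp ∈ Sd b := Finset.mem_union_left _ (List.mem_toFinset.2 e.pm)
  obtain ⟨q, qT, ⟨hq, qE, qS, q0, md, gq, v1, v2⟩, h⟩ := hm n (b.Γ ⊓ Hm (pp ^ (n + 1)))
    (E ∪ Sd b) ⟨fun g m t => ⟨b.Γ_conj m.1 t, (P014T.Dr.Hm_normal _).conj_mem g m.2 t⟩⟩
    (b.Γ_open.inter (Hm_open p0)) (fun g ⟨l, m, P, o, i⟩ =>
      have m' : l ∉ Sd b := fun c => m (Finset.mem_union_right _ c)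
      ⟨in_le b ⟨l, m', P, o, i⟩, inert_Hm o (Dr.nd_two o (fun c => m' (c ▸ pm)) _) i⟩)
    inf_le_right ⟨k0, fun y hy => k3 _ y (.inl hy)⟩ (hc n) T hT φ hφ
  have ov := pl.ov q hq
  have md' : q ≡ 1 [MOD pp ^ (n + 1)] :=
    md.trans (Nat.mod_eq_of_lt (Nat.one_lt_pow n.succ_ne_zero one_lt)).symm
  exact ⟨q, qT, ⟨⟨hq, fun c => qE (Finset.mem_union_left _ c),
    md'.of_dvd (pow_dvd_pow 3 n.le_succ), sq_of b ov qS (pl.fb q hq) v1.1⟩,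
    F.Pt.gq_nd ov (mt List.mem_toFinset.2 q0) (pl.fb q hq) gq (Nat.lt_succ_self _), v1.1,
    fun i => ⟨hq, qS, v2 i⟩⟩, h⟩

end Vale.Agent.P014Y.Md.Su
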