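import Vale.Agent.P014Y.Md.Tw1
import Vale.Agent.P014Y.Img
import Vale.Agent.P014Y.F.Pt.Dh

/-! # P014Y, block MD, the tower for an image killed by eight (helper55) -/

set_option autoImplicit false
set_option linter.all false

noncomputable section

namespace Vale.Agent.P014Y.Md

open NumberField Matrix
open Vale.Agent.P022 (Qb GQ)
open Vale.Agent.P022E.GW (Ov Fb)
open Vale.Agent.P014U
open P004K
open P014Y.F (Crv Fld)
open Mu

namespace Tv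

variable {e : Crv} (b : Fld e)

theorem det_c : (rb e b.c).det = -1 := by
  have k : ∀ x y : ZMod 3, x * y = 1 → x = 1 ∨ x = -1 := by decide
  refine (k _ (rb e b.c⁻¹).det (by
    rw [← det_mul, ← map_mul, mul_inv_cancel, map_one, det_one])).resolve_left fun d => ?_
  have z := P022K.G2.zt_prim 3
  have := (fx_det d _ z.pow_eq_one).symm.trans (P004F.Pt.cj_root b.cc three_ne_zero z.pow_eq_one)
  exact z.pow_ne_one_of_pos_of_lt two_ne_zero (by norm_num : 2 < 3)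
    (by rw [pow_two]; exact (mul_eq_one_iff_eq_inv₀ (z.ne_zero three_ne_zero)).2 this)

include b in
theorem four (ir : ∀ v : L2.W, v ≠ 0 → ∃ g, ∀ t : F, rb e g *ᵥ v ≠ t • v) :
    ∃ g, (rb e g).det = 1 ∧ (rb e g).trace = 0 :=
  (Img.four (Img.hm (rb e)) (fun x n => (ir x n).imp fun g h =>
    ⟨by simpa using h 1, by simpa using h (-1)⟩) ⟨b.c, by
      rw [← map_mul, P004F.Pt.cj_sq b.cc, map_one], det_c b⟩).imp fun g h => ⟨h.1, (Img.sq_neg h.2).1⟩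

/-- **the tower** (the text of row TWV1 with the words unfolded) -/
theorem twv0 (r1 : RC1) (r2 : RC2) (r3 : RC3)
    (ir : ∀ v : L2.W, v ≠ 0 → ∃ g, ∀ t : F, rb e g *ᵥ v ≠ t • v) (two : ∀ g, rb e g ^ 8 = 1) :
    ∃ (E : Finset ℕ) (d : ℕ), ∀ (k : ℕ) (Q : Finset ℕ) (σ : ℕ → GQ),
      (∀ q ∈ Q, Gt b (k + d) E q ∧ ∃ P, Ov q P ∧ Fb q P (σ q)) →
      ∃ (c : ℕ) (χ : GQ → ZMod (3 * 3 ^ k)), Tp.Lz b k c χ ∧
        (∀ q ∈ Q, q ∣ c ∧ ∀ g, 3 ∣ (χ (g * σ q * g⁻¹)).val) ∧ c.primeFactors.card ≤ Q.card + d ∧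
        ∀ q : ℕ, q.Prime → q ∣ c → Gt b (k + 1) ∅ q ∧ (q ∈ Q ∨ Tz (rb e) q) :=
  ⟨_, 2, fun k Q σ hQ => by
  have ex (q : ℕ) : ∃ P, q ∈ Q → Ov q P ∧ Fb q P (σ q) := by
    by_cases m : q ∈ Q
    · exact (hQ q m).2.imp fun _ a _ => a
    · exact ⟨⊥, fun a => absurd a m⟩
  choose P hP using ex
  obtain ⟨c, χ, L, c1, c2, c3⟩ := twp b r1 r2 r3 (tk8 b two (four b ir)) k Q P σ (fun _ => 0)
    fun q m => ⟨(hQ q m).1, hP q m⟩
  refine ⟨c, χ, L, fun q m => ⟨(c1 q m).1, fun g => ?_⟩, c2, c3⟩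
  obtain ⟨o, f⟩ := hP q m
  have := (L.ad.dh (i := 1) (by omega)).cj r1 b.iq (zero_lt_one.trans L.one) g
    ((hQ q m).1.sq _ o (P022D.W.phi_mem o.1 o.2.1 f))
  simp only [(c1 q m).2, ZMod.val_zero, Nat.cast_zero, neg_zero, or_self,
    ZMod.natCast_eq_zero_iff, pow_one] at this
  exact this⟩

end Tv

end Vale.Agent.P014Y.Md
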