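import Vale.Agent.P014Y.Md.Img0
import Vale.Agent.P014Y.Md.Sup0
import Vale.Agent.P014Y.Mu.Chv
import Vale.Agent.P014U.Mu.Sau

/-! # P014Y, block MD: the four planes of a curve with irreducible image -/

set_option autoImplicit false
set_option linter.all false

noncomputable section

namespace Vale.Agent.P014Y.Md.Im

open NumberField Matrix
open Vale.Agent.P022 (Qb GQ)
open Vale.Agent.P022K.G2 (In)
open Vale.Agent.P014U
open P014U.Mu.Sa (Irr hm_pow)
open P014Y.F (Crv Fld)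
open Top (Pr)
open P014T.Dr (Hm)
open P014Y.Mu P014Y.Mu.Cv

theorem d5 : ∀ i j : Fin 4, i ≠ j → ∃ x y : ZMod 3, (x = 1 ∨ x = -1) ∧ (y = 1 ∨ y = -1) ∧
    ∀ t : ZMod 3, t ≠ 0 → sc x y i * t ≠ sc x y j * t := by decide +kernel

theorem d6 : ∀ (i : Fin 4) (x y : ZMod 3), (x = 1 ∨ x = -1) → (y = 1 ∨ y = -1) →
    sc x y i * sc x y i = 1 := by decide +kernel

variable {e e' : Crv} (b : Fld e)

theorem ep_pm (g : GQ) : ep b g = 1 ∨ ep b g = -1 := by unfold ep; split_ifs <;> simp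

/-- all signs occur in a fibre -/
theorem ex_im {x : ZMod 3} (hx : x = 1 ∨ x = -1) (g : GQ) : ∃ y, ep b y = x ∧ rb e y = rb e g := by
  obtain ⟨y, m, k⟩ := b.onto g
  have q : rb e y = rb e g := congrArg (·.map PadicInt.toZMod) k
  rcases hx with rfl | rfl
  · exact ⟨y, (ep_one b).2 m, q⟩
  · obtain ⟨τ, t, l⟩ := b.ex_ker
    exact ⟨y * τ, (ep_pm b _).resolve_left fun c => t ((mul_mem_cancel_left m).1 ((ep_one b).1 c)),
      by rw [map_mul, q, show rb e τ = 1 from Tp.Ro.of e l, mul_one]⟩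

theorem cc : b.c * b.c = 1 := P004F.Pt.cj_sq b.cc

theorem dc : (rb e b.c).det = -1 :=
  (RingHom.map_det PadicInt.toZMod (e.r b.c)).symm.trans (by
    rw [Crv.r, X4M.TE.det_conj _ b.cc, map_neg, map_one])

theorem rs (pr : Pr (-3) e e') (i : Fin 4) : Rs (fr e e' b.δ' i) (Sd b) := by
  have nu0 : ∀ g ∈ In (Sd b : Set ℕ), P004S.nu (-b.δ') g = 0 := fun g m => (b.kd.gk _).1 (in_le b m)
  have r1 := rs_mono (rs_rb e) Finset.subset_union_left (sd_pr b)
  have r2 := rs_mono (pr.S ▸ rs_rb e') Finset.subset_union_left (sd_pr b)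
  fin_cases i
  exacts [r1, rs_tw r1 nu0, r2, rs_tw r2 nu0]

theorem fr_det (pr : Pr (-3) e e') (i : Fin 4) (g : GQ) :
    (fr e e' b.δ' i g).det = (rb e g).det :=
  (congrFun (rs b pr i).det g).trans (congrFun (rs b pr 0).det g).symm

theorem fr_tr (pr : Pr (-3) e e') (i : Fin 4) (g : GQ) :
    (fr e e' b.δ' i g).trace = sc (ep b g) (rb e g).det i * (rb e g).trace := by
  obtain ⟨Y, u, h⟩ := fr_cj b pr i
  rw [← mul_nonsing_inv_cancel_right Y (fr e e' b.δ' i g) u, h, trace_mul_cycle,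
    nonsing_inv_mul _ u, one_mul, trace_smul, smul_eq_mul]

/-- scalars on `Γ` -/
theorem fr_sc (pr : Pr (-3) e e') (i : Fin 4) {g : GQ} (m : g ∈ b.Γ) {s : ZMod 3}
    (h : rb e g = s • 1) : fr e e' b.δ' i g = s • 1 := by
  obtain ⟨Y, u, k⟩ := fr_cj b pr i
  have d : (rb e g).det = 1 := (det_pm (rb e) g).resolve_right (by
    rw [h]; generalize s = t; revert t; decide +kernel)
  rw [← mul_nonsing_inv_cancel_right Y (fr e e' b.δ' i g) u, k, (ep_one b).2 m, d, Cv.d3, one_smul, h,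
    mul_smul_comm, mul_one, smul_mul_assoc, mul_nonsing_inv _ u]

theorem fr_one (pr : Pr (-3) e e') (i : Fin 4) {g : GQ} (m : g ∈ b.Γ) (h : rb e g = 1) :
    fr e e' b.δ' i g = 1 := by
  simpa using fr_sc b pr i m (s := 1) (by simpa using h)

theorem fr_ir (pr : Pr (-3) e e') (ir : Irr (rb e)) (i : Fin 4) : Irr (fr e e' b.δ' i) :=
  fun v n => by
    obtain ⟨Y, u, k⟩ := fr_cj b pr i
    obtain ⟨g, hg⟩ := ir (Y⁻¹ *ᵥ v) fun c => n (by
      rw [← one_mulVec v, ← mul_nonsing_inv _ u, ← mulVec_mulVec, c, mulVec_zero])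
    refine ⟨g, fun s c => hg (sc (ep b g) (rb e g).det i * s) ?_⟩
    rw [mul_smul, ← mulVec_smul, ← c, mulVec_mulVec, mulVec_mulVec,
      ← mul_nonsing_inv_cancel_right Y (fr e e' b.δ' i g) u, k, mul_assoc,
      nonsing_inv_mul_cancel_left _ _ u, ← smul_mulVec, smul_mul_assoc, smul_smul,
      d6 _ _ _ (ep_pm b g) (det_pm _ g), one_smul]

/-- the element of the lemma of Sah -/
theorem ex_neg (pr : Pr (-3) e e') (ir : Irr (rb e)) (n : ℕ) :
    ∃ c ∈ b.Γ ⊓ Hm (pp ^ (n + 1)), ∀ i, fr e e' b.δ' i c = -1 := by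
  obtain ⟨g, hg⟩ := neg ir (cc b) (dc b)
  obtain ⟨y, y1, y2⟩ := ex_im b (.inl rfl) g
  have m := pow_mem ((ep_one b).1 y1) (pp ^ n)
  refine ⟨y ^ pp ^ n, ⟨m, hm_pow pp_ne (fun w h => ?_) n⟩, fun i => ?_⟩
  · have := Tp.Ro.cyc e y w h
    rwa [show Tp.rho e y = -1 from y2.trans hg, show (-1 : G3).det.val = 1 by decide +kernel,
      pow_one] at this
  · simpa using fr_sc b pr i m (s := -1) (by
      rw [map_pow, y2, hg, (pp_prime.odd_of_ne_two pp_ne_two).pow.neg_one_pow]; simp)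

theorem dn_of (pr : Pr (-3) e e') (ir : Irr (rb e)) {ι : Type} [Finite ι] (f : ι → Fin 4)
    (df : ∀ i j, i ≠ j → ∃ g, (fr e e' b.δ' (f i) g).trace ≠ (fr e e' b.δ' (f j) g).trace) :
    Su.Dn fun i => fr e e' b.δ' (f i) :=
  dn (by decide) (fun i => fr_ir b pr ir _) (cc b) (fun i => (fr_det b pr _ _).trans (dc b))
    fun i j n => (df i j n).imp fun g h => ⟨(fr_det b pr _ _).trans (fr_det b pr _ _).symm, h⟩

/-- the curve and its twist -/
theorem dn2 (ir : Irr (rb e)) : Su.Dn ![rb e, tw (-b.δ') (rb e)] := by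
  obtain ⟨τ, t1, t2⟩ := ex_im b (.inr rfl) 1
  have d g : (tw (-b.δ') (rb e) g).det = (rb e g).det := by
    show (ep b g • rb e g).det = _
    rcases ep_pm b g with h | h <;> simp [h, det_neg]
  have t : (rb e τ).trace ≠ (tw (-b.δ') (rb e) τ).trace := by
    show _ ≠ (ep b τ • rb e τ).trace
    rw [t1, t2, map_one]
    decide +kernel
  refine dn (by decide) (Fin.forall_fin_two.2 ⟨ir, fun v n => ?_⟩) (cc b)
    (Fin.forall_fin_two.2 ⟨dc b, (d _).trans (dc b)⟩) (Fin.forall_fin_two.2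
      ⟨Fin.forall_fin_two.2 ⟨fun n => (n rfl).elim, fun _ => ⟨τ, (d τ).symm, t⟩⟩,
        Fin.forall_fin_two.2 ⟨fun _ => ⟨τ, d τ, t.symm⟩, fun n => (n rfl).elim⟩⟩)
  obtain ⟨g, hg⟩ := ir v n
  obtain ⟨y, y1, y2⟩ := ex_im b (.inl rfl) g
  refine ⟨y, fun s => ?_⟩
  show (ep b y • rb e y) *ᵥ v ≠ _
  rw [y1, one_smul, y2]
  exact hg s

/-- **four different modules, or an isomorphism** -/
theorem four (pr : Pr (-3) e e') (ir : Irr (rb e)) : Su.Dn (fr e e' b.δ') ∨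
    ∃ M : G3, IsUnit M.det ∧ ∀ g, rb e' g * M = M * rb e g := by
  refine (two ir (cc b) (dc b)).imp (fun ⟨g, d, t⟩ => dn_of b pr ir id fun i j n => ?_)
    fun ⟨J, j, h⟩ => ?_
  · obtain ⟨x, y, hx, hy, k⟩ := d5 i j n
    obtain ⟨w, w1, w2⟩ : ∃ w, (rb e w).det = y ∧ (rb e w).trace ≠ 0 :=
      hy.elim (fun h => ⟨1, by rw [h, map_one, det_one], by rw [map_one]; decide +kernel⟩)
        fun h => ⟨g, h ▸ d, t⟩
    obtain ⟨z, z1, z2⟩ := ex_im b hx w
    exact ⟨z, by rw [fr_tr b pr, fr_tr b pr, z1, z2, w1]; exact k _ w2⟩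
  · obtain ⟨Y, u, k⟩ := fr_cj b pr 2
    refine ⟨Y * J, by rwa [det_mul, j, mul_one], fun g => ?_⟩
    rw [← mul_assoc, show rb e' g * Y = _ from k g, mul_assoc, mul_assoc, h]
    rfl

end Vale.Agent.P014Y.Md.Im
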