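import Vale.Agent.P014Y.Md.Sup
import Vale.Agent.P014Y.Md.Img1

/-! # P014Y, block MD: the supply of primes for a curve with irreducible image -/

set_option autoImplicit false
set_option linter.all false

noncomputable section

namespace Vale.Agent.P014Y.Md.Su

open Vale.Agent.P014U
open L2 (M2)
open X4S (Pl)
open P014Y.F (Crv Fld)
open Top (Pr)
open P014Y.Mu

/-- **four modules, or two modules and an isomorphism** -/
theorem chv0 {e e' : Crv} (b : Fld e) (pl : Pl) (pr : Pr (-3) e e') (ir : P014U.Mu.Sa.Irr (rb e))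
    {G : ℕ → ℕ → Finset ℕ → ℕ → Prop} (hG : ∀ m n E q, Gt b n E q →
      (∀ i, U1 (fr e e' b.δ' i) pl (Sd b) q) → Gq e m q → G m n E q) : ∃ m : ℕ,
    (∀ n E, Sp2 (fr e e' b.δ') pl (G m n E)) ∨
    ∃ M : M2, IsUnit M.det ∧ (∀ g, rb e' g * M = M * rb e g) ∧
      ∀ n E, Sp2 ![rb e, tw (-b.δ') (rb e)] pl (G m n E) := by
  rcases Im.four b pr ir with d | ⟨M, u, h⟩
  · exact (sup b pl (Im.rs b pr) d (fun g m k i => Im.fr_one b pr i m k)
      (Im.ex_neg b pr ir)).imp fun m h => .inl fun n E =>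
        mono (h n E) fun q g => hG m n E q g.1 g.2.2.2 g.2.1
  · exact (sup b pl (Fin.forall_fin_two.2 ⟨Im.rs b pr 0, Im.rs b pr 1⟩) (Im.dn2 b ir)
      (fun g m k => Fin.forall_fin_two.2 ⟨k, Im.fr_one b pr 1 m k⟩) fun n =>
        let ⟨c, m, k⟩ := Im.ex_neg b pr ir n
        ⟨c, m, Fin.forall_fin_two.2 ⟨k 0, k 1⟩⟩).imp fun m k => .inr ⟨M, u, h, fun n E =>
      mono (k n E) fun q g => hG m n E q g.1 (fun i =>
        ⟨g.1.pr, (g.2.2.2 0).out, Im.fr_one b pr i g.2.2.1 (g.2.2.2 0).fr⟩) g.2.1⟩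

end Vale.Agent.P014Y.Md.Su
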