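import Vale.Agent.P014Y.Md.D0
import Vale.Agent.P014Y.Mu.Dsc

/-! # P014Y, block MD, row DSC1: descent from the quadratic field -/

set_option autoImplicit false
set_option linter.all false

noncomputable section

namespace Vale.Agent.P014Y.Md

open NumberField Matrix
open scoped Classical Pointwise
open Vale.Agent.P022 (Qb GQ)
open Vale.Agent.P022D.W (dec inP_le_dec phi_mem)
open Vale.Agent.P022K.G2 (In)
open Vale.Agent.P014U
open L2 (W M2)
open P004S (nu kn)
open Mu Mu.Ds

/-- **row DSC1** -/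
theorem dsc1 [Pp] : DSC1 := by
  intro a pl d Γ c S S' Q r r' le hΓ n k up sq kl y hy un ur vs u0 ot
  obtain rfl : Γ = kn d := Subgroup.ext hΓ
  have ci : c⁻¹ = c := inv_eq_of_mul_eq_one_right k
  have cc : ∀ P : Ideal (𝓞 Qb), c • c • P = P := fun P => by rw [smul_smul, k, one_smul]
  have t1 : ∀ g ∈ kn d, tw d a g = a g := fun g m => by
    show (if nu d g = 0 then 1 else -1 : F) • a g = _
    rw [if_pos (show nu d g = 0 from m), one_smul]
  have ik : ∀ g ∈ In (S' : Set ℕ), g ∈ kn d := fun g m => by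
    by_contra e
    have := congrFun (congrFun (r'.unr g m) 0) 0
    change ((if nu d g = 0 then 1 else -1 : F) • a g) 0 0 = _ at this
    rw [if_neg (show ¬ nu d g = 0 from e), r.unr g (in_mono le m)] at this
    simp only [Matrix.smul_apply, one_apply_eq, smul_eq_mul, mul_one] at this
    exact two_ne (by linear_combination -this)
  have key : ∀ b : GQ →* M2, Rs b S' → (∀ g ∈ kn d, b g = a g) → (∃ s : F, b c = s • a c) →
      ex b d c y ∈ Rl b pl S' Q := fun b rb e ⟨s, es⟩ => by
    have cl := ex_cl n k (cl_congr e (fun _ _ => rfl) hy)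
    have ev : ∀ g ∈ kn d, ex b d c y g = (y + s • cj a c y) g := fun g m => by
      rw [ex_of m, Pi.add_apply, Pi.smul_apply, cj, cj, es, smul_mulVec]
    have z0 : ∀ g ∈ kn d, g ∈ In ((S ∪ Q : Finset ℕ) : Set ℕ) → ex b d c y g = 0 := fun g m i => by
      rw [ex_of m, cj, un g m i, un _ (kcj m c) (in_cj i c), mulVec_zero, add_zero]
    have op := pl.ov pp pp_prime
    have dp := sq pp (Finset.mem_union_left _ r.pm) _ op
    refine ⟨⟨zg_of rb.opn (fun g m => rb.unr g (in_mono Finset.subset_union_left m)) cl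
      fun g m => z0 g (ik g (in_mono Finset.subset_union_left m))
        (in_mono (Finset.union_subset_union_left le) m), ?_⟩,
      ot_congr (fun g m => e g (dp m)) (fun g m => ev g (dp m)) (add_mem (ot _ op)
        (Submodule.smul_mem _ s (cc (pl.P pp) ▸ ot_cj (ot _ (ov_sm op c)) c)))⟩
    simp only [SetLike.mem_coe, Submodule.mem_iInf, Lc]
    intro l m
    obtain ⟨ne, m⟩ := Finset.mem_erase.1 m
    split_ifs with q
    · have o := pl.ov l (up l q)
      have sm := sq l (Finset.mem_union_right _ q) _ o (phi_mem o.1 o.2.1 (pl.fb l (up l q)))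
      have v := vs l q 1
      have v' := vs l q c⁻¹
      rw [inv_one, one_mul, mul_one] at v
      rw [inv_inv] at v'
      exact ⟨cl_mono cl le_top, (mem_Vs b).2 ⟨0, by
        rw [ex_of sm, cj, v, v', mulVec_zero, mulVec_zero, sub_self, add_zero]⟩⟩
    have o := pl.ov l (rb.pr l ((Finset.mem_union.1 m).resolve_right q))
    by_cases s : l ∈ S
    · have dl := sq l (Finset.mem_union_left _ s) _ o
      exact ur_congr (fun g m => e g (dl m)) (fun g m => ev g (dl m)) (add_mem (ur l s ne _ o)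
        (Submodule.smul_mem _ _ (cc (pl.P l) ▸ ur_cj (ur l s ne _ (ov_sm o c)) c)))
    · exact ⟨cl_mono cl le_top, bl_two (d := d) (cl_mono cl le_top) fun g i m =>
        ⟨(e g m).trans (r.unr g ⟨l, s, _, o, i⟩), z0 g m ⟨l, by simp [s, q], _, o, i⟩⟩⟩
  have tc : tw d a c = (-1 : F) • a c := by
    show (if nu d c = 0 then 1 else -1 : F) • a c = _
    rw [if_neg (show ¬ nu d c = 0 from n)]
  have e2 : ∀ g ∈ kn d, (ex a d c y + ex (tw d a) d c y) g = ((2 : F) • y) g := fun g m => by
    rw [Pi.add_apply, ex_of m, ex_of m, cj, cj, tc, smul_mulVec, Pi.smul_apply]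
    module
  have dp := sq pp (Finset.mem_union_left _ r.pm) _ (pl.ov pp pp_prime)
  obtain ⟨p, q⟩ := kl _ (key a ⟨r.toR0, r'.pm, r'.pr, fun g m => r.unr g (in_mono le m)⟩
    (fun _ _ => rfl) ⟨1, (one_smul _ _).symm⟩) _ (key _ r' t1 ⟨_, tc⟩)
    (ur_congr (fun _ _ => rfl) (fun g m => e2 g (dp m)) (Submodule.smul_mem _ _ u0))
  obtain ⟨v, hv⟩ := mem_bl.1 p
  obtain ⟨w, hw⟩ := mem_bl.1 q
  refine mem_bl.2 ⟨(2 : F)⁻¹ • (v + w), fun g m => ?_⟩
  have := e2 g m
  rw [Pi.add_apply, hv g trivial, hw g trivial, t1 g m, Pi.smul_apply] at this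
  rw [mulVec_smul, mulVec_add, ← smul_sub, add_sub_add_comm, this, smul_smul,
    inv_mul_cancel₀ two_ne, one_smul]

end Vale.Agent.P014Y.Md
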