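import Vale.Agent.P014Y.Md.D0
import Vale.Agent.P014Y.Mu.Lin

/-! # P014Y, block MD, row ISO1: transport along an isomorphism of planes -/

set_option autoImplicit false
set_option linter.all false

noncomputable section

namespace Vale.Agent.P014Y.Md

open NumberField Matrix
open Vale.Agent.P022 (Qb GQ)
open Vale.Agent.P014U
open L2 (W M2)
open X4S (Pl)
open Mu Mu.Li

variable [Pp]

namespace Is

variable {a b : GQ →* M2} {M : M2} {z : X} {D : Subgroup GQ} {pl : Pl} {S Q : Finset ℕ}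
  (h : ∀ g, b g * M = M * a g)
include h

theorem mv (g : GQ) (v : W) : M *ᵥ (a g *ᵥ v) = b g *ᵥ (M *ᵥ v) := by
  rw [mulVec_mulVec, mulVec_mulVec, h]

theorem cl (m : z ∈ Cl a D) : (fun g => M *ᵥ z g) ∈ Cl b D :=
  ⟨fun g p j q => by simp only [m.1 g p j q, mulVec_add, mv h],
    m.2.imp fun _ k => ⟨k.1, fun w p q => by simp only [k.2 w p q, mulVec_zero]⟩⟩

theorem bl (m : z ∈ Bl a D) : (fun g => M *ᵥ z g) ∈ Bl b D := m.elim fun v e =>
  ⟨M *ᵥ v, fun g p => (congrArg _ (e g p)).trans ((mulVec_sub _ _ _).trans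
    (congrArg (· - _) (mv h g v)))⟩

theorem vs {σ : GQ} (m : z ∈ Vs a σ) : (fun g => M *ᵥ z g) ∈ Vs b σ :=
  ((mem_Vs a).1 m).elim fun v e => (mem_Vs b).2 ⟨M *ᵥ v, by rw [← e, mulVec_sub, mv h]⟩

theorem zg {T : Finset ℕ} (m : z ∈ Zg a T) : (fun g => M *ᵥ z g) ∈ Zg b T :=
  ⟨fun g p j q => (congrArg _ (m.1 g p j q)).trans ((mulVec_add _ _ _).trans
      (congrArg _ (mv h g _))), fun _ n => (n trivial).elim,
    m.2.2.imp fun _ k => ⟨k.1, fun w p q => by simp only [k.2 w p q, mulVec_zero]⟩⟩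

theorem ur {P : Ideal (𝓞 Qb)} (m : z ∈ Ur a P) : (fun g => M *ᵥ z g) ∈ Ur b P :=
  ⟨cl h m.1, bl h m.2⟩

theorem st (m : z ∈ St a pl S Q) : (fun g => M *ᵥ z g) ∈ St b pl S Q := by
  obtain ⟨p, q⟩ := mem_sl.1 m.1
  refine ⟨mem_sl.2 ⟨zg h p, fun l n => ?_⟩, ur h m.2⟩
  have := q l n
  unfold Lc at this ⊢
  split_ifs at this ⊢
  exacts [⟨cl h this.1, vs h this.2⟩, ur h this]

end Is

/-- **row ISO1** -/
theorem iso1 : ISO1 := fun a a' M u h pl S Q k z m => by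
  have := Is.bl h (k (Is.st (M := M⁻¹) (fun g => ?_) m))
  · simpa only [mulVec_mulVec, mul_nonsing_inv M u, one_mulVec] using this
  · rw [← one_mul (a g * _), ← nonsing_inv_mul M u, mul_assoc, ← mul_assoc M, ← h, mul_assoc,
      mul_nonsing_inv M u, mul_one]

end Vale.Agent.P014Y.Md
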