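import Vale.Agent.P014Y.Mu.Lin
import Vale.Agent.P014U.L2.Gp

/-! # P014Y, block MD: the game with four modules and three lines (helper79) -/

set_option autoImplicit false
set_option linter.all false

noncomputable section

namespace Vale.Agent.P014Y.Md.Gm

open Module Finset
open scoped Classical

section game

variable {T ι β : Type} [Fintype ι] [Fintype β] {d : T → ι → ℕ} {R : T → T → Prop}

theorem free (hβ : 3 ≤ Fintype.card β) {n : β → T} (D : Finset ι) (c : D.card ≤ 2)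
    (h : ∀ i ∈ D, ∀ b b', d (n b) i ≠ 0 → d (n b') i ≠ 0 → b = b') :
    ∃ b, ∀ i ∈ D, d (n b) i = 0 := by
  by_contra k
  simp only [not_exists, not_forall, exists_prop] at k
  choose g g1 g2 using k
  have := Finset.card_le_card_of_injOn (s := univ) (t := D) g (fun b _ => g1 b)
    fun b _ b' _ e => h _ (g1 b) b b' (g2 b) (e ▸ g2 b')
  rw [card_univ] at this
  omega

theorem two (hι : Fintype.card ι ≤ 4) {i j : ι} (n : i ≠ j) {A : Finset ι} (a : i ∉ A)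
    (b : j ∉ A) : A.card ≤ 2 := by
  have := card_le_univ (insert i (insert j A))
  rw [card_insert_of_notMem (by simp [n, a]), card_insert_of_notMem b] at this
  omega

/-- one or two moves lower the sum -/
theorem game (hι : Fintype.card ι ≤ 4) (hβ : 3 ≤ Fintype.card β)
    (gen : ∀ t, ∃ n : β → T, (∀ b, R t (n b)) ∧ ∀ i, (d t i ≠ 0 → ∀ b, d (n b) i ≤ d t i - 2) ∧
      (d t i = 0 → (∀ b, d (n b) i ≤ 1) ∧ ∀ b b', d (n b) i ≠ 0 → d (n b') i ≠ 0 → b = b'))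
    (spe : ∀ t i j, i ≠ j → d t i = 1 → (∀ k ≠ i, d t k = 0) →
      ∃ t', R t t' ∧ d t' i ≠ 0 ∧ d t' j ≠ 0 ∧ ∀ k, d t' k ≤ 2)
    (t : T) {i : ι} (hi : d t i ≠ 0) :
    ∃ t', (R t t' ∨ ∃ s, R t s ∧ R s t') ∧ ∑ k, d t' k < ∑ k, d t k := by
  have few : ∀ t, (univ.filter fun k => d t k = 0).card ≤ 2 →
      ∃ t', R t t' ∧ ∀ k, d t' k ≤ d t k - 2 := fun t c => by
    obtain ⟨n, r, h⟩ := gen t
    obtain ⟨b, e⟩ := free hβ _ c fun k m => ((h k).2 (mem_filter.1 m).2).2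
    refine ⟨n b, r b, fun k => ?_⟩
    by_cases z : d t k = 0
    · rw [e k (mem_filter.2 ⟨mem_univ _, z⟩)]; exact Nat.zero_le _
    · exact (h k).1 z b
  have le : d t i ≤ ∑ k, d t k := single_le_sum (fun _ _ => Nat.zero_le _) (mem_univ i)
  by_cases c : (univ.filter fun k => d t k = 0).card ≤ 2
  · obtain ⟨t', r, h⟩ := few t c
    exact ⟨t', .inl r, sum_lt_sum (fun k _ => (h k).trans (Nat.sub_le _ _))
      ⟨i, mem_univ _, by have := h i; omega⟩⟩
  have z : ∀ k ≠ i, d t k = 0 := fun k n => by_contra fun e =>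
    c (two hι n (by simpa using e) (by simpa using hi))
  obtain ⟨j, hj⟩ := card_pos.1 (show 0 < (univ.filter fun k => d t k = 0).card by omega)
  have ji : i ≠ j := fun e => hi (e ▸ (mem_filter.1 hj).2)
  by_cases e : d t i = 1
  · obtain ⟨s, r, a1, a2, a3⟩ := spe t i j ji e z
    obtain ⟨t', r', h⟩ := few s (two hι ji (by simpa using a1) (by simpa using a2))
    refine ⟨t', .inr ⟨s, r, r'⟩, ?_⟩
    rw [sum_eq_zero fun k _ => show d t' k = 0 by have := h k; have := a3 k; omega]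
    omega
  · obtain ⟨n, r, h⟩ := gen t
    obtain ⟨b, hb⟩ := free hβ ((univ.erase i).erase j) (two hι ji (by simp) (by simp))
      fun k m => ((h k).2 (z k (by simp at m; exact m.2))).2
    refine ⟨n b, .inl (r b), ?_⟩
    rw [sum_eq_add_of_mem i j (mem_univ _) (mem_univ _) ji fun k _ m => hb k (by simp [m.1, m.2])]
    have := (h i).1 hi b
    have := ((h j).2 (z j ji.symm)).1 b
    omega

/-- the end of the game -/
theorem ends {c : T → ℕ} (hR : ∀ t t', R t t' → c t' ≤ c t + 1)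
    (h : ∀ t i, d t i ≠ 0 → ∃ t', (R t t' ∨ ∃ s, R t s ∧ R s t') ∧ ∑ k, d t' k < ∑ k, d t k)
    (n : ℕ) : ∀ t, ∑ k, d t k ≤ n → ∃ t', c t' ≤ c t + 2 * n ∧ ∀ i, d t' i = 0 := by
  induction n with
  | zero => exact fun t e => ⟨t, le_rfl, fun i => by
      have : d t i ≤ ∑ k, d t k := single_le_sum (fun _ _ => Nat.zero_le _) (mem_univ i)
      omega⟩
  | succ n ih =>
    intro t e
    by_cases z : ∀ i, d t i = 0
    · exact ⟨t, Nat.le_add_right _ _, z⟩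
    obtain ⟨i, hi⟩ := not_forall.1 z
    obtain ⟨s, r, lt⟩ := h t i hi
    obtain ⟨t', a, b⟩ := ih s (by omega)
    refine ⟨t', ?_, b⟩
    rcases r with r | ⟨u, r, r'⟩
    · have := hR _ _ r; omega
    · have := hR _ _ r; have := hR _ _ r'; omega

end game

section lin

open Vale.Agent.P014U
open L2 (W wp_skew)
open P004S (wp)
open Mu

variable [Pp] {X : Type} [AddCommGroup X] [Module (ZMod pp) X]

theorem par {u v : W} (h : wp u v = 0) (n : v ≠ 0) : ∃ c : ZMod pp, u = c • v := by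
  rw [wp, sub_eq_zero] at h
  by_cases e : v 0 = 0
  · have k : v 1 ≠ 0 := fun k => n (funext (Fin.forall_fin_two.2 ⟨e, k⟩))
    rw [e, mul_zero, mul_eq_zero, or_iff_left k] at h
    exact ⟨u 1 / v 1, funext (Fin.forall_fin_two.2 ⟨by simp [h, e], by simp [k]⟩)⟩
  · refine ⟨u 0 / v 0, funext (Fin.forall_fin_two.2 ⟨by simp [e], ?_⟩)⟩
    simp only [Pi.smul_apply, smul_eq_mul]
    field_simp
    rw [← h, mul_comm]

theorem fr1 (L M : Submodule (ZMod pp) X) [Module.Finite (ZMod pp) L] [Module.Finite (ZMod pp) M]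
    (f : X →ₗ[ZMod pp] ZMod pp) (h : ∀ x ∈ L, f x = 0 → x ∈ M) :
    finrank (ZMod pp) L ≤ finrank (ZMod pp) M + 1 := by
  have a := Li.fr_add f L (L ⊓ LinearMap.ker f) fun _ => Iff.rfl
  have b := Submodule.finrank_le (L.map f)
  have c := Submodule.finrank_mono (show L ⊓ LinearMap.ker f ≤ M from fun x m => h x m.1 m.2)
  rw [finrank_self] at b
  omega

theorem fr2 {L M : Submodule (ZMod pp) X} [Module.Finite (ZMod pp) M] (h : L ≤ M) {x : X}
    (a : x ∈ M) (b : x ∉ L) : finrank (ZMod pp) L < finrank (ZMod pp) M :=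
  Submodule.finrank_lt_finrank_of_lt (lt_of_le_of_ne h fun e => b (e ▸ a))

theorem fr3 {L M : Submodule (ZMod pp) X} [Module.Finite (ZMod pp) L]
    (h : finrank (ZMod pp) L < finrank (ZMod pp) M) : ∃ x ∈ M, x ∉ L :=
  SetLike.not_le_iff_exists.1 fun e => (Submodule.finrank_mono e).not_gt h

theorem fn1 {L : Submodule (ZMod pp) X} {x : X} (h : x ∉ L) :
    ∃ f : X →ₗ[ZMod pp] ZMod pp, L ≤ LinearMap.ker f ∧ f x = 1 := by
  obtain ⟨f, a, b⟩ := L.exists_le_ker_of_notMem h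
  exact ⟨(f x)⁻¹ • f, fun y m => by simpa using .inr (b m), by simp [a]⟩

/-- the codimension -/
def dd (L B : Submodule (ZMod pp) X) : ℕ := finrank (ZMod pp) L - finrank (ZMod pp) B

theorem dd_iff {L B : Submodule (ZMod pp) X} [Module.Finite (ZMod pp) L] (h : B ≤ L) :
    dd L B = 0 ↔ L ≤ B := ⟨fun e => (Submodule.eq_of_le_of_finrank_le h (Nat.sub_eq_zero_iff_le.1 e)).ge,
  fun e => by rw [dd, le_antisymm e h, Nat.sub_self]⟩

theorem pick0 {St Rl : Submodule (ZMod pp) X} [Module.Finite (ZMod pp) St]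
    (fr : finrank (ZMod pp) Rl = finrank (ZMod pp) St + 1) :
    ∃ φ : X →ₗ[ZMod pp] W, St ≤ LinearMap.ker φ ∧ ∃ z ∈ Rl, φ z ≠ 0 := by
  obtain ⟨z, m, n⟩ := fr3 (L := St) (M := Rl) (by omega)
  obtain ⟨f, a, b⟩ := fn1 n
  exact ⟨LinearMap.pi fun _ => f, fun x k => funext fun _ => a k, z, m, fun k =>
    one_ne_zero (b.symm.trans (congrFun k 0))⟩

/-- a good choice of the kernel -/
def Pk (B St Rl : Submodule (ZMod pp) X) (φ : X →ₗ[ZMod pp] W) : Prop :=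
  B ≤ LinearMap.ker φ ∧ (∃ z ∈ Rl, φ z ≠ 0) ∧ (¬ St ≤ B →
    (∃ x ∈ Rl, ∃ y ∈ Rl, ∀ r s : ZMod pp, φ (r • x + s • y) = 0 → r = 0 ∧ s = 0) ∧
      dd (St ⊓ LinearMap.ker φ) B ≤ dd St B - 2)

theorem pick {B St Rl : Submodule (ZMod pp) X} [Module.Finite (ZMod pp) Rl] (bs : B ≤ St)
    (sr : St ≤ Rl) (fr : finrank (ZMod pp) Rl = finrank (ZMod pp) St + 1) : ∃ φ, Pk B St Rl φ := by
  haveI := Submodule.finiteDimensional_of_le sr
  haveI := Submodule.finiteDimensional_of_le bs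
  by_cases dead : St ≤ B
  · obtain ⟨φ, a, b⟩ := pick0 fr
    exact ⟨φ, bs.trans a, b, fun n => (n dead).elim⟩
  obtain ⟨x, m, n⟩ := SetLike.not_le_iff_exists.1 dead
  obtain ⟨f, a, b⟩ := fn1 n
  have lt := fr2 bs m n
  have key : ∀ M ≤ Rl, finrank (ZMod pp) B + 2 ≤ finrank (ZMod pp) M →
      ∃ y ∈ M, ∃ φ : X →ₗ[ZMod pp] W, B ≤ LinearMap.ker φ ∧ f y = 0 ∧ φ y ≠ 0 ∧
        LinearMap.ker φ ≤ LinearMap.ker f ∧
        ∀ r s : ZMod pp, φ (r • x + s • y) = 0 → r = 0 ∧ s = 0 := fun M le c => by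
    haveI := Submodule.finiteDimensional_of_le le
    have := fr1 M (M ⊓ LinearMap.ker f) f fun _ p q => ⟨p, q⟩
    obtain ⟨y, ⟨m', fy⟩, n'⟩ := fr3 (L := B) (M := M ⊓ LinearMap.ker f) (by omega)
    obtain ⟨g, a', b'⟩ := fn1 n'
    replace fy : f y = 0 := fy
    refine ⟨y, m', LinearMap.pi ![f, g], fun w k => funext (Fin.forall_fin_two.2 ⟨a k, a' k⟩), fy,
      fun k => one_ne_zero (b'.symm.trans (congrFun k 1)), fun w k => congrFun k 0, fun r s k => ?_⟩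
    have k0 : r = 0 := by simpa [b, fy] using congrFun k 0
    exact ⟨k0, by simpa [k0, b'] using congrFun k 1⟩
  have l1 := fr2 (inf_le_left : St ⊓ LinearMap.ker f ≤ St) m fun k =>
    one_ne_zero (b.symm.trans k.2)
  by_cases c : finrank (ZMod pp) B + 2 ≤ finrank (ZMod pp) St
  · obtain ⟨y, m', φ, p1, p2, p3, p4, p5⟩ := key St sr c
    refine ⟨φ, p1, ⟨y, sr m', p3⟩, fun _ => ⟨⟨x, sr m, y, sr m', p5⟩, ?_⟩⟩
    have := fr2 (inf_le_inf_left St p4) ⟨m', p2⟩ fun k => p3 k.2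
    unfold dd
    omega
  · obtain ⟨y, m', φ, p1, p2, p3, p4, p5⟩ := key Rl le_rfl (by omega)
    refine ⟨φ, p1, ⟨y, m', p3⟩, fun _ => ⟨⟨x, sr m, y, m', p5⟩, ?_⟩⟩
    have := Submodule.finrank_mono (inf_le_inf_left St p4)
    unfold dd
    omega

/-- the data of one step: `Y` has no condition at the new prime -/
structure Sd (B St Rl Y : Submodule (ZMod pp) X) (e t : X →ₗ[ZMod pp] W) : Prop where
  fy : Module.Finite (ZMod pp) Y
  bs : B ≤ St
  be : ∀ x ∈ B, e x = 0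
  st : ∀ x, x ∈ St ↔ x ∈ Y ∧ t x = 0
  rc : ∀ z ∈ Rl, ∀ x ∈ Y, wp (t x) (e z) = 0
  is : ∀ x ∈ Y, wp (e x) (t x) = 0
  ex : St ≤ B → ¬ Y ≤ B

/-- the new group -/
def nw (Y : Submodule (ZMod pp) X) (e t : X →ₗ[ZMod pp] W) (b : ZMod pp) :
    Submodule (ZMod pp) X := Y ⊓ LinearMap.ker (e + b • t)

variable {B St Rl Y : Submodule (ZMod pp) X} {e t : X →ₗ[ZMod pp] W} {b b' : ZMod pp} {x y z : X}

theorem mem_nw : x ∈ nw Y e t b ↔ x ∈ Y ∧ e x + b • t x = 0 := Iff.rfl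

variable (h : Sd B St Rl Y e t)
include h

theorem Sd.fs : Module.Finite (ZMod pp) St :=
  haveI := h.fy
  Submodule.finiteDimensional_of_le (S₂ := Y) fun x m => ((h.st x).1 m).1

theorem Sd.fn : Module.Finite (ZMod pp) (nw Y e t b) :=
  haveI := h.fy
  Submodule.finiteDimensional_of_le (S₂ := Y) inf_le_left

theorem Sd.s0 (m : x ∈ St) (k : e x = 0) : x ∈ nw Y e t b :=
  ⟨((h.st x).1 m).1, show e x + b • t x = 0 by rw [k, ((h.st x).1 m).2, smul_zero, add_zero]⟩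

theorem Sd.bn : B ≤ nw Y e t b := fun x m => h.s0 (h.bs m) (h.be x m)

theorem Sd.back (m : x ∈ nw Y e t b) (k : t x = 0) : x ∈ St ⊓ LinearMap.ker e :=
  ⟨(h.st x).2 ⟨m.1, k⟩, by simpa [k] using (mem_nw.1 m).2⟩

theorem Sd.s1 (hx : x ∈ Rl) (hy : y ∈ Rl)
    (i : ∀ r s : ZMod pp, e (r • x + s • y) = 0 → r = 0 ∧ s = 0) :
    nw Y e t b ≤ St ⊓ LinearMap.ker e := fun w m => h.back m (by_contra fun n => by
  obtain ⟨c, a⟩ := par (show wp (e x) (t w) = 0 by rw [wp_skew, h.rc x hx w m.1, neg_zero]) n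
  obtain ⟨c', a'⟩ := par (show wp (e y) (t w) = 0 by rw [wp_skew, h.rc y hy w m.1, neg_zero]) n
  have k := (i c' (-c) (by rw [map_add, map_smul, map_smul, a, a', smul_smul, smul_smul,
    ← add_smul, mul_comm c', neg_mul, add_neg_cancel, zero_smul])).2
  exact one_ne_zero (i 1 0 (by simp [a, neg_eq_zero.1 k])).1)

theorem Sd.s2 (hz : z ∈ Rl) (n : e z ≠ 0) :
    finrank (ZMod pp) (nw Y e t b) ≤ finrank (ZMod pp) ↥(St ⊓ LinearMap.ker e) + 1 := by
  obtain ⟨j, hj⟩ := Function.ne_iff.1 n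
  haveI := h.fn (b := b)
  haveI := h.fs
  refine fr1 _ _ (LinearMap.proj j ∘ₗ t) fun w m k => h.back m ?_
  obtain ⟨c, a⟩ := par (h.rc z hz w m.1) n
  have : c * e z j = 0 := by simpa [a] using k
  rw [a, (mul_eq_zero.1 this).resolve_right hj, zero_smul]

theorem Sd.un (dead : St ≤ B) (hz : z ∈ Rl) (n : e z ≠ 0) (k : ¬ nw Y e t b ≤ B)
    (k' : ¬ nw Y e t b' ≤ B) : b = b' := by
  obtain ⟨w, m, nb⟩ := SetLike.not_le_iff_exists.1 k
  obtain ⟨w', m', nb'⟩ := SetLike.not_le_iff_exists.1 k'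
  obtain ⟨c, a⟩ := par (h.rc z hz w m.1) n
  obtain ⟨c', a'⟩ := par (h.rc z hz w' m'.1) n
  have c0 : c ≠ 0 := fun o => nb (dead (h.back m (by rw [a, o, zero_smul])).1)
  have c1 : c' ≠ 0 := fun o => nb' (dead (h.back m' (by rw [a', o, zero_smul])).1)
  have v := h.be _ (dead ((h.st (c • w' - c' • w)).2 ⟨sub_mem (Y.smul_mem _ m'.1) (Y.smul_mem _ m.1),
    by rw [map_sub, map_smul, map_smul, a, a', smul_smul, smul_smul, mul_comm, sub_self]⟩))
  rw [map_sub, map_smul, map_smul, eq_neg_of_add_eq_zero_left (mem_nw.1 m).2,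
    eq_neg_of_add_eq_zero_left (mem_nw.1 m').2, a, a'] at v
  have : (c * c' * (b - b')) • e z = 0 := by
    rw [← v]; module
  simpa [c0, c1, n, sub_eq_zero] using this

theorem Sd.s3 (dead : St ≤ B) : ∃ b, ¬ nw Y e t b ≤ B := by
  obtain ⟨w, m, nb⟩ := SetLike.not_le_iff_exists.1 (h.ex dead)
  obtain ⟨c, a⟩ := par (h.is w m) fun o => nb (dead ((h.st w).2 ⟨m, o⟩))
  exact ⟨-c, fun k => nb (k ⟨m, show e w + -c • t w = 0 by rw [a, neg_smul, add_neg_cancel]⟩)⟩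

variable {φ : X →ₗ[ZMod pp] W} (sr : St ≤ Rl) (k : ∀ z ∈ Rl, e z = 0 ↔ φ z = 0)
include sr k

/-- the generic move -/
theorem Sd.gen (p : Pk B St Rl φ) : (dd St B ≠ 0 → ∀ b, dd (nw Y e t b) B ≤ dd St B - 2) ∧
    (dd St B = 0 → (∀ b, dd (nw Y e t b) B ≤ 1) ∧
      ∀ b b', dd (nw Y e t b) B ≠ 0 → dd (nw Y e t b') B ≠ 0 → b = b') := by
  haveI := h.fs
  obtain ⟨-, ⟨z, hz, n⟩, p⟩ := p
  replace n := (k z hz).not.2 n
  refine ⟨fun a b => ?_, fun a => ⟨fun b => ?_, fun b b' c c' => ?_⟩⟩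
  · obtain ⟨⟨x, hx, y, hy, i⟩, le⟩ := p ((dd_iff h.bs).not.1 a)
    have := Submodule.finrank_mono ((h.s1 (b := b) hx hy fun r s o => i r s ((k _ (add_mem
      (Rl.smul_mem _ hx) (Rl.smul_mem _ hy))).1 o)).trans (show _ ≤ St ⊓ LinearMap.ker φ from
        fun w m => ⟨m.1, (k w (sr m.1)).1 m.2⟩))
    unfold dd at le ⊢
    omega
  · have := h.s2 (b := b) hz n
    have := Submodule.finrank_mono (inf_le_left : St ⊓ LinearMap.ker e ≤ St)
    unfold dd at a ⊢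
    omega
  · haveI := h.fn (b := b)
    haveI := h.fn (b := b')
    exact h.un ((dd_iff h.bs).1 a) hz n ((dd_iff h.bn).not.1 c) ((dd_iff h.bn).not.1 c')

/-- the special move -/
theorem Sd.spe (p : St ≤ LinearMap.ker φ ∧ ∃ z ∈ Rl, φ z ≠ 0) (b : ZMod pp) :
    dd St B ≤ dd (nw Y e t b) B ∧ dd (nw Y e t b) B ≤ dd St B + 1 := by
  haveI := h.fs
  haveI := h.fn (b := b)
  obtain ⟨a, z, hz, n⟩ := p
  have := h.s2 (b := b) hz ((k z hz).not.2 n)
  have := Submodule.finrank_mono (inf_le_left : St ⊓ LinearMap.ker e ≤ St)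
  have := Submodule.finrank_mono (show St ≤ nw Y e t b from fun x m =>
    h.s0 m ((k x (sr m)).2 (a m)))
  unfold dd
  omega

end lin

end Vale.Agent.P014Y.Md.Gm
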