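import Vale.Agent.P014Y.Mu.St0

/-! # P014Y, block MD: primes with trivial Frobenius element (words and rows, helper79) -/

set_option autoImplicit false
set_option linter.all false

noncomputable section

namespace Vale.Agent.P014Y.Md

open NumberField Matrix Module
open scoped Classical
open Vale.Agent.P022 (Qb GQ)
open Vale.Agent.P022D.W (dec)
open Vale.Agent.P014U
open L2 (W M2)
open X4S (Pl)
open Mu

variable [Pp]

/-- primes with a trivial Frobenius element -/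
structure U1 (a : GQ →* M2) (pl : Pl) (S : Finset ℕ) (q : ℕ) : Prop where
  pr : q.Prime
  out : q ∉ S
  fr : a (pl.σ q) = 1

/-- `pl'` differs from `pl` by the Frobenius elements at `Q` only -/
def Ag (pl pl' : Pl) (Q : Finset ℕ) : Prop := pl'.P = pl.P ∧ pl'.τ = pl.τ ∧
  (∀ l ∉ Q, pl'.σ l = pl.σ l) ∧ ∀ q ∈ Q, ∃ b : ℕ, pl'.σ q = pl.σ q * pl.τ q ^ b

/-- enough primes with the property `G`: every kernel occurs -/
def Sp2 {ι : Type} (a : ι → GQ →* M2) (pl : Pl) (G : ℕ → Prop) : Prop :=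
  ∀ T : Finset ℕ, (∀ i, Rs (a i) T) → ∀ φ : ι → X →ₗ[F] W,
    (∀ i, Bl (a i) ⊤ ≤ LinearMap.ker (φ i)) →
    ∃ q ∉ T, G q ∧ ∀ i, ∀ z ∈ Zg (a i) T, z (pl.σ q) = 0 ↔ φ i z = 0

/-- the two groups differ by a line; the line is Lagrangian -/
def GWL1 : Prop := ∀ a pl S Q, Rs a S → (∀ q ∈ Q, U1 a pl S q) →
  Module.Finite F (Rl a pl S Q) ∧ Bl a ⊤ ≤ St a pl S Q ∧ St a pl S Q ≤ Rl a pl S Q ∧
  finrank F (Rl a pl S Q) = finrank F (St a pl S Q) + 1 ∧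
  Ot a (dec (pl.P pp)) (Ur a (pl.P pp) ⊔ Rl a pl S Q) = Ur a (pl.P pp) ⊔ Rl a pl S Q

/-- **killing** with primes of trivial Frobenius element -/
def KIL1 : Prop := ∀ (ι : Type) [Fintype ι] (a : ι → GQ →* M2) pl S, Fintype.card ι ≤ 4 →
  (∀ i, Rs (a i) S) → ∃ k : ℕ, ∀ G : ℕ → Prop, (∀ q, G q → ∀ i, U1 (a i) pl S q) → Sp2 a pl G →
    ∃ (Q : Finset ℕ) (pl' : Pl), Ag pl pl' Q ∧ Q.card ≤ k ∧ (∀ q ∈ Q, G q) ∧
      ∀ i, St (a i) pl' S Q ≤ Bl (a i) ⊤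

end Vale.Agent.P014Y.Md
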