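import Vale.Agent.P014Y.Mu.Trl

/-! # P014Y, block MD: the local classes at a prime where the action is trivial -/

set_option autoImplicit false
set_option linter.all false

noncomputable section

namespace Vale.Agent.P014Y.Md.Lo

open NumberField Matrix Module
open scoped Classical
open Vale.Agent.P022 (Qb GQ)
open Vale.Agent.P022.H443 (inP)
open Vale.Agent.P027M.S (Inert)
open Vale.Agent.P022D.W (dec inP_le_dec phi_mem)
open Vale.Agent.P022E.GW (Ov Fb)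
open Vale.Agent.P022K.G2 (Lv B2 H0 ch om ka Gz Ch d1_apply ch_apply ex_lv')
open Vale.Agent.P014U
open L2 (W M2 rh dt cu BB wp_skew wp_nd)
open P004S (wp wp_add_left wp_add_right wp_smul_left wp_smul_right wp_zero_left wp_zero_right)
open Mu Mu.Ul

theorem dq_eq {k X Y : Type} [Field k] [AddCommGroup X] [Module k X] [AddCommGroup Y] [Module k Y]
    (L L' : Submodule k X) (π : X →ₗ[k] Y) (h : ∀ x ∈ L, x ∈ L' ↔ π x = 0) :
    dq L L' = finrank k (L.map π) := by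
  have e : LinearMap.ker (L'.mkQ.domRestrict L) = LinearMap.ker (π.domRestrict L) :=
    Submodule.ext fun x => (Submodule.Quotient.mk_eq_zero _).trans (h x.1 x.2)
  rw [dq, ← LinearMap.range_domRestrict, ← LinearMap.range_domRestrict,
    ← (LinearMap.quotKerEquivRange _).finrank_eq, ← (LinearMap.quotKerEquivRange _).finrank_eq, e]

variable [Pp] {a : GQ →* M2} {q : ℕ} {P : Ideal (𝓞 Qb)} {φ φ' τ g : GQ} {x y z : X}
  {η β : GQ → F}

theorem fb_mul (o : Ov q P) (f : Fb q P φ) {s : GQ} (m : s ∈ inP P) : Fb q P (φ * s) := fun x => by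
  have := P.add_mem ((phi_mem o.1 o.2.1 f _).2 (m x)) (f x)
  rwa [smul_sub, sub_add_sub_cancel, ← mul_smul] at this

/-- the decomposition group acts trivially -/
structure L1 (a : GQ →* M2) (q : ℕ) (P : Ideal (𝓞 Qb)) : Prop extends R0 a where
  ov : Ov q P
  np : q ≠ pp
  one : ∀ g ∈ dec P, a g = 1

/-- from the Frobenius element -/
theorem l1_of (r : R0 a) (o : Ov q P) (n : q ≠ pp) (f : Fb q P φ) (u : ∀ s ∈ inP P, a s = 1)
    (e : a φ = 1) : L1 a q P := ⟨r, o, n, fun g m => by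
  have k := fun v : W => fix_dec r o f (v := v) (fun s m => by rw [u s m, one_mulVec])
    (by rw [e, one_mulVec]) g m
  exact L2.rh_one.1 (LinearMap.ext k)⟩

variable (h : L1 a q P)
include h

theorem L1.dt1 (m : g ∈ dec P) : dt a g = 1 := L2.dt_ker (h.one g m)

theorem L1.gz : dec P ≤ Gz pp := fun g m =>
  (P022K.G2.om_eq_one F).1 ((congrFun h.det g).symm.trans (h.dt1 m))

theorem L1.add (hz : z ∈ Cl a (dec P)) (m : g ∈ dec P) {j : GQ} (n : j ∈ dec P) :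
    z (g * j) = z g + z j := by rw [hz.1 g m j n, h.one g m, one_mulVec]

theorem L1.pow (hz : z ∈ Cl a (dec P)) (m : g ∈ dec P) (k : ℕ) : z (g ^ k) = k • z g := by
  induction k with
  | zero => rw [pow_zero, cl_one hz, zero_smul]
  | succ k ih => rw [pow_succ, h.add hz (pow_mem m k) m, ih, succ_nsmul]

theorem L1.bl : z ∈ Bl a (dec P) ↔ ∀ g ∈ dec P, z g = 0 :=
  ⟨fun ⟨v, e⟩ g m => by rw [e g m, d0_ap, h.one g m, one_mulVec, sub_self], bl_of⟩

theorem L1.vs (m : g ∈ dec P) : z ∈ Vs a g ↔ z g = 0 := by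
  rw [mem_Vs, h.one g m]; simp [eq_comm]

theorem L1.rq (f : Fb q P φ) : z ∈ Rq a P φ ↔ z ∈ Cl a (dec P) ∧ z φ = 0 :=
  and_congr_right fun _ => h.vs (phi_mem h.ov.1 h.ov.2.1 f)

theorem L1.hz2 : hz a (dec P) = 2 := by
  rw [hz, show (H0 (dec P) (rh a) fun _ => 1) = ⊤ from eq_top_iff.2 fun v _ =>
    mem_h0.2 fun g m => by rw [h.one g m, one_mulVec], finrank_top]
  exact Module.finrank_fin_fun _

theorem L1.chc (c : Ch (dec P) η) (v : W) : (fun g => η g • v) ∈ Cl a (dec P) :=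
  ⟨fun g m j n => by simp only [c.1 g m j n, h.one g m, one_mulVec, add_smul],
    c.2.imp fun U e => ⟨e.1, fun w m n => by simp only [e.2 w m n, zero_smul]⟩⟩

theorem L1.sym (c : Ch (dec P) η) (c' : Ch (dec P) β) :
    (fun g j => η g * β j + β g * η j) ∈ BB a (dec P) := by
  obtain ⟨c, U, l, u⟩ := c
  obtain ⟨c', V, l', v⟩ := c'
  refine ⟨fun g => -(η g * β g), ⟨U ⊓ V, l.inf l', fun g m w n k => by
    simp only [c g m w n, c' g m w n, u w n k.1, v w n k.2, add_zero]⟩, fun g m j n => ?_⟩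
  simp only [d1_apply, ch_apply, h.dt1 m, c g m j n, c' g m j n]
  ring

theorem L1.sq (c : Ch (dec P) η) : (fun g j => η g * η j) ∈ BB a (dec P) := by
  have n : (2 : F) ≠ 0 := two_ne
  refine B2.congr (Submodule.smul_mem _ (2 : F)⁻¹ (h.sym c c)) (fun g _ j _ => ?_) fun _ _ => rfl
  simp only [Pi.smul_apply, smul_eq_mul]
  field_simp
  ring

variable (f : Fb q P φ) (t : Gn q P τ)
include f t

/-- **coordinates** -/
theorem L1.co : ∃ δ κ : GQ → F, Ch (dec P) δ ∧ Ch (dec P) κ ∧ δ φ = 1 ∧ (∀ s ∈ inP P, δ s = 0) ∧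
    (∀ g, κ g = ka pp q g - ka pp q φ * δ g) ∧
    ∀ z ∈ Cl a (dec P), ∀ g ∈ dec P, z g = δ g • z φ + κ g • z τ := by
  obtain ⟨δ, V, hV, h1, h2, h3, h4⟩ := P022E.GW.Unr.deg h.ov.1 h.ov.2.1 h.ov.2.2 f (N := pp) pp_ne
  obtain ⟨U, lv, le⟩ := ex_lv' hV
  obtain ⟨k1, U', lv', k2⟩ := P022K.G2.ka_ch h.gz (b := q) (Nat.cast_ne_zero.2 h.ov.1.ne_zero)
    fun g _ => map_natCast g q
  have c : Ch (dec P) δ := ⟨h1, U, lv, fun w m n => h4 w (le n) m⟩
  have c' : Ch (dec P) fun g => ka pp q g - ka pp q φ * δ g :=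
    ⟨fun g m j n => by simp only [k1 g m j n, h1 g m j n]; ring, U ⊓ U', lv.inf lv', fun w m n => by
      simp only [k2 w m n.2, h4 w (le n.1) m, mul_zero, sub_zero]⟩
  refine ⟨δ, _, c, c', h2, h3, fun _ => rfl, fun z hz g m => sub_eq_zero.1
    (van h.ov f (sub_mem hz (add_mem (h.chc c (z φ)) (h.chc c' (z τ)))) (fun s n => ?_) ?_ g m)⟩
  · obtain ⟨v, hn⟩ := (P022K.G2.tam pp q P h.ov h.np).2.2 F W z
      (fun g j k k' => h.add hz (inP_le_dec k) (inP_le_dec k'))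
      (hz.2.imp fun U e => ⟨e.1, fun w k k' => e.2 w (inP_le_dec k') k⟩)
    simp [h3 s n, hn s n, hn τ t.1, t.2]
  · simp [h2]

theorem L1.ext (hz : z ∈ Cl a (dec P)) (e : z φ = 0) (e' : z τ = 0) : z ∈ Bl a (dec P) := by
  obtain ⟨δ, κ, -, -, -, -, -, k⟩ := h.co f t
  exact bl_of fun g m => by rw [k z hz g m, e, e', smul_zero, smul_zero, add_zero]

theorem L1.ex (u v : W) : ∃ z ∈ Cl a (dec P), z φ = u ∧ z τ = v := by
  obtain ⟨δ, κ, c, c', h2, h3, e, -⟩ := h.co f t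
  exact ⟨_, add_mem (h.chc c u) (h.chc c' v), by simp [e, h2], by simp [e, h3 τ t.1, t.2]⟩

/-- the value at another Frobenius element -/
theorem L1.val (f' : Fb q P φ') (hz : z ∈ Cl a (dec P)) :
    z φ' = z φ + (ka pp q φ' - ka pp q φ) • z τ := by
  obtain ⟨δ, κ, c, -, h2, h3, e, k⟩ := h.co f t
  have m := Tl.fb_div h.ov f f'
  have d := c.1 φ (phi_mem h.ov.1 h.ov.2.1 f) _ (inP_le_dec m)
  rw [mul_inv_cancel_left, h2, h3 _ m, add_zero] at d
  rw [k z hz φ' (phi_mem h.ov.1 h.ov.2.1 f'), e, d, one_smul, mul_one]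

theorem L1.ur : z ∈ Ur a P ↔ z ∈ Cl a (dec P) ∧ z τ = 0 := and_congr_right fun hz =>
  ⟨fun ⟨v, e⟩ => by rw [e τ t.1, d0_ap, h.one τ (inP_le_dec t.1), one_mulVec, sub_self], fun e => by
    obtain ⟨δ, κ, -, -, -, h3, -, k⟩ := h.co f t
    exact bl_of fun s m => by rw [k z hz s (inP_le_dec m), h3 s m, e, zero_smul, smul_zero, add_zero]⟩

/-- **the local pairing** -/
theorem L1.cu_iff (hx : x ∈ Cl a (dec P)) (hy : y ∈ Cl a (dec P)) :
    cu a x y ∈ BB a (dec P) ↔ wp (x φ) (y τ) + wp (y φ) (x τ) = 0 := by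
  obtain ⟨δ, κ, c, c', h2, h3, e, k⟩ := h.co f t
  have key : ∀ x ∈ Cl a (dec P), ∀ y ∈ Cl a (dec P), (cu a x y -
      (wp (x φ) (y τ) + wp (y φ) (x τ)) • fun g j => δ g * κ j) ∈ BB a (dec P) := fun x hx y hy => by
    refine B2.congr (add_mem (add_mem (Submodule.smul_mem _ (wp (x φ) (y φ)) (h.sq c))
      (Submodule.smul_mem _ (wp (x τ) (y τ)) (h.sq c')))
      (Submodule.smul_mem _ (wp (x τ) (y φ)) (h.sym c c'))) (fun g m j n => ?_) fun _ _ => rfl
    simp only [cu, Pi.sub_apply, Pi.add_apply, Pi.smul_apply, smul_eq_mul, h.one g m, one_mulVec]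
    rw [k x hx g m, k y hy j n, wp_skew (y φ)]
    simp only [wp_add_left, wp_add_right, wp_smul_left, wp_smul_right]
    ring
  refine ⟨fun m => by_contra fun n => ?_, fun e => by simpa [e] using key x hx y hy⟩
  have m1 : (fun g j => δ g * κ j) ∈ BB a (dec P) := by
    have := sub_mem m (key x hx y hy)
    rw [sub_sub_cancel] at this
    exact (Submodule.smul_mem_iff _ n).1 this
  obtain ⟨z, hz, -, e⟩ := h.ex f t 0 1
  have := h.bl.1 (Tl.nd h.toR0 h.ov hz fun x hx => by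
    rw [← sub_add_cancel (cu a x z) _]
    exact add_mem (key x hx z hz) (Submodule.smul_mem _ _ m1)) τ (inP_le_dec t.1)
  exact one_ne_zero (e.symm.trans this)

theorem L1.dq_ur : dq (Ur a P) (Rq a P φ) = 2 := by
  rw [dq_eq (Ur a P) _ (LinearMap.proj φ) fun x m => (h.rq f).trans (and_iff_right m.1),
    show (Ur a P).map (LinearMap.proj φ) = ⊤ from eq_top_iff.2 fun v _ => by
      obtain ⟨z, hz, e, e'⟩ := h.ex f t v 0
      exact ⟨z, (h.ur f t).2 ⟨hz, e'⟩, e⟩, finrank_top]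
  exact Module.finrank_fin_fun _

theorem L1.dq_ur' : dq (Rq a P φ) (Ur a P) = 2 := by
  rw [dq_eq (Rq a P φ) _ (LinearMap.proj τ) fun x m => (h.ur f t).trans (and_iff_right m.1),
    show (Rq a P φ).map (LinearMap.proj τ) = ⊤ from eq_top_iff.2 fun v _ => by
      obtain ⟨z, hz, e, e'⟩ := h.ex f t 0 v
      exact ⟨z, (h.rq f).2 ⟨hz, e⟩, e'⟩, finrank_top]
  exact Module.finrank_fin_fun _

theorem L1.rq_eq (f' : Fb q P φ') (e : ka pp q φ' = ka pp q φ) : Rq a P φ' = Rq a P φ :=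
  Submodule.ext fun z => by
  rw [h.rq f, h.rq f']
  exact and_congr_right fun hz => by rw [h.val f t f' hz, e, sub_self, zero_smul, add_zero]

theorem L1.dq_rq (f' : Fb q P φ') (e : ka pp q φ' ≠ ka pp q φ) :
    dq (Rq a P φ) (Rq a P φ') = 2 := by
  refine ((dq_eq _ _ (LinearMap.proj τ) fun x m => ?_).trans (dq_eq (Rq a P φ) _ _ fun x m =>
    (h.ur f t).trans (and_iff_right m.1)).symm).trans (h.dq_ur' f t)
  rw [h.rq f', and_iff_right ((h.rq f).1 m).1, h.val f t f' m.1, ((h.rq f).1 m).2, zero_add,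
    smul_eq_zero_iff_right (sub_ne_zero.2 e)]
  rfl

omit t

/-- **the lines are Lagrangian** -/
theorem L1.ot : Ot a (dec P) (Rq a P φ) = Rq a P φ := by
  obtain ⟨τ, t⟩ := ex_gn h.ov h.np
  refine le_antisymm (fun y hy => (h.rq f).2 ⟨hy.1, wp_nd _ fun v => ?_⟩) fun y hy =>
    ⟨hy.1, fun x hx => (h.cu_iff f t hx.1 hy.1).2 (by
      rw [((h.rq f).1 hx).2, ((h.rq f).1 hy).2, wp_zero_left, wp_zero_left, add_zero])⟩
  obtain ⟨z, hz, e, rfl⟩ := h.ex f t 0 v
  have := (h.cu_iff f t hz hy.1).1 (hy.2 z ((h.rq f).2 ⟨hz, e⟩))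
  rwa [e, wp_zero_left, zero_add] at this

theorem L1.bl_rq : Bl a (dec P) ≤ Rq a P φ := fun z m =>
  (h.rq f).2 ⟨bl_le h.toR0 _ m, h.bl.1 m φ (phi_mem h.ov.1 h.ov.2.1 f)⟩

theorem L1.inf : Ur a P ⊓ Vs a φ ≤ Bl a (dec P) := fun z m => by
  obtain ⟨τ, t⟩ := ex_gn h.ov h.np
  exact h.ext f t m.1.1 ((h.vs (phi_mem h.ov.1 h.ov.2.1 f)).1 m.2) ((h.ur f t).1 m.1).2

end Vale.Agent.P014Y.Md.Lo
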