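import Vale.Agent.P014Y.Mu.All0
import Vale.Agent.P014Y.Md.K0
import Vale.Agent.P014Y.Md.Lo1
import Vale.Agent.P014Y.Md.Game

/-! # P014Y, block MD: killing with primes of trivial Frobenius element (helper79) -/

set_option autoImplicit false
set_option linter.all false

noncomputable section

namespace Vale.Agent.P014Y.Md

open NumberField Matrix Module
open scoped Classical
open Vale.Agent.P022 (Qb GQ)
open Vale.Agent.P022D.W (dec inP_le_dec phi_mem)
open Vale.Agent.P022E.GW (Ov Fb)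
open Vale.Agent.P022K.G2 (B1)
open Vale.Agent.P014U
open L2 (W M2 wp_skew)
open X4S (Pl)
open P004S (wp)
open Mu Mu.Lo Mu.Li Mu.Gw Md.Lo Gm

variable [Pp] {l q : ℕ} {a : GQ →* M2} {x z : X} {S T Q : Finset ℕ} {pl : Pl}

namespace Ki

theorem np (r : Rs a S) (u : U1 a pl S q) : q ≠ pp := fun e => u.out (e ▸ r.pm)

theorem l1 (r : Rs a S) (u : U1 a pl S q) : L1 a q (pl.P q) :=
  l1_of r.toR0 (pl.ov q u.pr) (np r u) (pl.fb q u.pr)
    (fun s m => r.unr s ⟨q, u.out, _, pl.ov q u.pr, m⟩) u.fr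

theorem rs_u1 (r : Rs a S) (u : ∀ q ∈ Q, U1 a pl S q) : Rs a (S ∪ Q) :=
  rs_mono r Finset.subset_union_left fun l m =>
    (Finset.mem_union.1 m).elim (r.pr l) fun m => (u l m).pr

theorem lc_lag (r : Rs a S) (u : ∀ q ∈ Q, U1 a pl S q) (hp : l.Prime) (hl : l ≠ pp) :
    Ot a (dec (pl.P l)) (Lc a pl Q l) = Lc a pl Q l ∧ Bl a (dec (pl.P l)) ≤ Lc a pl Q l := by
  unfold Lc
  split_ifs with m
  · exact ⟨(l1 r (u l m)).ot (pl.fb l hp), (l1 r (u l m)).bl_rq (pl.fb l hp)⟩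
  · exact ⟨ur_lag dim url r.toR0 (pl.ov l hp) hl, (url a l _ r.toR0 (pl.ov l hp)).1⟩

end Ki

open Ki

/-- **GWL** at primes of trivial Frobenius element -/
theorem gwl1 : GWL1 := fun a pl S Q r u => by
  obtain ⟨f, i⟩ := inv pl
  have r' := rs_u1 r u
  have lq := fun l m => locq a l _ _ r.toR0 (pl.ov l (r'.pr l m)) (i.loc l (r'.pr l m))
  have o := pl.ov pp (r.pr _ r.pm)
  obtain ⟨u1, u2, u3⟩ := url a pp _ r.toR0 o
  obtain ⟨q, e⟩ := lq pp r'.pm
  have ll := fun l (m : l ∈ (S ∪ Q).erase pp) => Ki.lc_lag r u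
    (r'.pr l (Finset.mem_of_mem_erase m)) (Finset.ne_of_mem_erase m)
  obtain ⟨g1, g2⟩ := gwa _ _ _ _ _ (Lc a pl Q) _ _ (Ur a (pl.P pp)) pp (qs0 a pl _ f r' i) r'.pm
    (fun l m => by rw [(lq l (Finset.mem_of_mem_erase m)).2 _ (lc_le l), (ll l m).1]) u1
    (by rwa [e _ ur_le])
  obtain ⟨-, l2, l3, -⟩ := laga _ _ _ _ _ _ q u1 (inf_le_left : Ur a (pl.P pp) ≤ _)
  have l4 := (l3 _ (u2.trans (e _ ur_le).ge) ot_le).1
  rw [dim a pp _ r.toR0 o, if_pos rfl] at l2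
  rw [e _ (sup_le ur_le (inf_le_right.trans ot_le)), e _ ur_le] at g1
  have := zg_fin r'
  refine ⟨Submodule.finiteDimensional_of_le (inf_le_left.trans inf_le_left), fun x hx =>
    ⟨mem_sl.2 ⟨b_zg r' hx, fun l m => (ll l m).2 (P022K.G2.B1.mono hx le_top)⟩, u1 (P022K.G2.B1.mono hx le_top)⟩,
    inf_le_inf_left _ u2, ?_, g1⟩
  rw [show dq (ot _ (bt a (f pp)) (Ur a (pl.P pp))) (Ur a (pl.P pp)) = 2 by omega,
    e _ ur_le] at g2
  unfold Rl St Sb
  omega

namespace Ki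

/-- another Frobenius element at `q` -/
def up (pl : Pl) (q b : ℕ) : Pl where
  P := pl.P
  σ l := if l = q ∧ l ≠ pp then pl.σ l * pl.τ l ^ b else pl.σ l
  τ := pl.τ
  ov := pl.ov
  fb l hl := by
    split_ifs with e
    · exact fb_mul (pl.ov l hl) (pl.fb l hl) (pow_mem (pl.gn l hl e.2).1 b)
    · exact pl.fb l hl
  gn := pl.gn

theorem up_ne {b : ℕ} (n : l ≠ q) : (up pl q b).σ l = pl.σ l := if_neg fun e => n e.1

theorem up_eq {b : ℕ} (n : q ≠ pp) : (up pl q b).σ q = pl.σ q * pl.τ q ^ b := if_pos ⟨rfl, n⟩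

/-- no condition at `q` and at `pp` -/
def Yb (a : GQ →* M2) (pl : Pl) (S Q : Finset ℕ) (q : ℕ) : Submodule F X :=
  sl (Zg a (S ∪ insert q Q)) ((S ∪ Q).erase pp) (Lc a pl Q)

variable (r : Rs a S) (u : ∀ x ∈ Q, U1 a pl S x) (uq : U1 a pl S q) (nq : q ∉ Q)
include r u uq nq

theorem rs1 : Rs a (S ∪ insert q Q) := rs_u1 r ((Finset.forall_mem_insert _ _ _).2 ⟨uq, u⟩)

theorem old : x ∈ Sb a pl S Q ↔ x ∈ Yb a pl S Q q ∧ x (pl.τ q) = 0 := by
  have sub : S ∪ Q ⊆ S ∪ insert q Q := Finset.union_subset_union_right (Finset.subset_insert _ _)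
  have e : (S ∪ insert q Q) \ (S ∪ Q) = {q} := by
    ext l
    have := uq.out
    simp only [Finset.mem_sdiff, Finset.mem_union, Finset.mem_insert, Finset.mem_singleton]
    exact ⟨by tauto, by rintro rfl; tauto⟩
  rw [Sb, Yb, mem_sl, mem_sl, ← unq a pl _ _ (rs_u1 r u) sub (rs1 r u uq nq).pr, mem_sl, e,
    and_right_comm]
  refine and_congr_right fun m => ?_
  simp only [Finset.mem_singleton, forall_eq]
  rw [(l1 r uq).ur (pl.fb q uq.pr) (pl.gn q uq.pr (np r uq)), and_iff_right (zg_cl _ m.1)]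

theorem new (b : ℕ) : x ∈ Sb a (up pl q b) S (insert q Q) ↔
    x ∈ Yb a pl S Q q ∧ x (pl.σ q) + (b : F) • x (pl.τ q) = 0 := by
  have h := l1 r uq
  have n := np r uq
  have e : (S ∪ insert q Q).erase pp = insert q ((S ∪ Q).erase pp) := by
    rw [Finset.union_insert, Finset.erase_insert_of_ne n]
  have t := inP_le_dec (pl.gn q uq.pr n).1
  rw [Sb, Yb, mem_sl, mem_sl, e, Finset.forall_mem_insert, and_assoc]
  refine and_congr_right fun m => and_comm.trans (and_congr (forall₂_congr fun l k => ?_) ?_)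
  · have : l ≠ q := by
      rintro rfl
      simp [uq.out, nq] at k
    simp only [Lc, Finset.mem_insert, this, false_or, up_ne this]
    rfl
  · rw [Lc, if_pos (Finset.mem_insert_self _ _)]
    refine (h.rq ((up pl q b).fb q uq.pr)).trans ?_
    rw [and_iff_right (zg_cl _ m), up_eq n, h.add (zg_cl _ m)
      (phi_mem h.ov.1 h.ov.2.1 (pl.fb q uq.pr)) (pow_mem t b), h.pow (zg_cl _ m) t,
      Nat.cast_smul_eq_nsmul]

theorem rcp (hx : x ∈ Yb a pl S Q q) (xp : x ∈ Ur a (pl.P pp)) (hz : z ∈ Yb a pl S Q q)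
    (zp : z ∈ Ot a (dec (pl.P pp)) (Ur a (pl.P pp))) :
    wp (x (pl.σ q)) (z (pl.τ q)) + wp (z (pl.σ q)) (x (pl.τ q)) = 0 := by
  obtain ⟨f, i⟩ := inv pl
  have r' := rs1 r u uq nq
  have mq : q ∈ S ∪ insert q Q := by simp
  obtain ⟨z1, z2⟩ := mem_sl.1 hz
  obtain ⟨x1, x2⟩ := mem_sl.1 hx
  have k := (recq a pl _ f r' i).iso x x1 z z1
  rw [Finset.sum_eq_single_of_mem q mq fun l m n => by
    refine (bt_iff r.toR0 (i.loc l (r'.pr l m)) (zg_cl _ x1) (zg_cl _ z1)).2 ?_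
    by_cases e : l = pp
    · exact e ▸ zp.2 x xp
    have m' : l ∈ (S ∪ Q).erase pp := Finset.mem_erase.2 ⟨e, by simpa [n] using m⟩
    have := z2 l m'
    rw [← (Ki.lc_lag r u (r'.pr l m) e).1] at this
    exact this.2 x (x2 l m')] at k
  exact ((l1 r uq).cu_iff (pl.fb q uq.pr) (pl.gn q uq.pr (np r uq)) (zg_cl _ x1) (zg_cl _ z1)).1
    ((bt_iff r.toR0 (i.loc q uq.pr) (zg_cl _ x1) (zg_cl _ z1)).1 k)

/-- a new class -/
theorem exw (dead : St a pl S Q ≤ Bl a ⊤) : ¬ Yb a pl S Q q ⊓ Ur a (pl.P pp) ≤ Bl a ⊤ := by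
  intro no
  obtain ⟨f, i⟩ := inv pl
  have r' := rs1 r u uq nq
  have h := l1 r uq
  have n := np r uq
  obtain ⟨g1, g2, g3, g4, g5⟩ := gwl1 a pl S Q r u
  have lq := fun l m => locq a l _ _ r.toR0 (pl.ov l (r'.pr l m)) (i.loc l (r'.pr l m))
  have mq : q ∈ S ∪ insert q Q := by simp
  have e : (S ∪ insert q Q).erase q = insert pp ((S ∪ Q).erase pp) := by
    rw [Finset.union_insert, Finset.erase_insert (by simp [uq.out, nq]),
      Finset.insert_erase (Finset.mem_union_left _ r.pm)]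
  let L : ℕ → Submodule F X := fun l =>
    if l = pp then Ur a (pl.P pp) ⊔ Rl a pl S Q else Lc a pl Q l
  have mem : ∀ y, y ∈ sl (Zg a (S ∪ insert q Q)) ((S ∪ insert q Q).erase q) L ↔
      y ∈ Yb a pl S Q q ∧ y ∈ Ur a (pl.P pp) ⊔ Rl a pl S Q := fun y => by
    rw [Yb, mem_sl, mem_sl, e, Finset.forall_mem_insert, and_assoc, and_comm (a := y ∈ L pp)]
    exact and_congr_right fun _ => and_congr (forall₂_congr fun l k => by
      simp only [L, if_neg (Finset.ne_of_mem_erase k)]) (by simp only [L, if_pos])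
  obtain ⟨lqq, eq⟩ := lq q mq
  have rad := lqq.rad
  have oc : ot (Cl a (dec (pl.P q))) (bt a (f q)) (Bl a (dec (pl.P q))) = Cl a (dec (pl.P q)) := by
    conv_lhs => rw [← rad]
    exact (laga _ _ _ _ _ _ lqq (b_le r.toR0) le_rfl).1
  obtain ⟨-, c⟩ := gwa _ _ _ _ _ L _ _ (Bl a (dec (pl.P q))) q (qs0 a pl _ f r' i) mq
    (fun l m => by
      have m' := Finset.mem_of_mem_erase m
      by_cases k : l = pp
      · subst k
        simp only [L, if_pos]
        rw [(lq _ m').2 _ (sup_le ur_le (show Rl a pl S Q ≤ _ from fun _ p => p.2.1)), g5]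
      · simp only [L, if_neg k]
        rw [(lq l m').2 _ (lc_le l), (Ki.lc_lag r u (r'.pr l m') k).1]) le_rfl
    (by rw [oc]; exact b_le r.toR0)
  rw [oc, dim a q _ r.toR0 h.ov, h.hz2, if_neg n] at c
  haveI := zg_fin r'
  haveI := g1
  have le : sl (Zg a (S ∪ insert q Q)) ((S ∪ insert q Q).erase q) L ⊓ Cl a (dec (pl.P q)) ≤
      Rl a pl S Q := fun y m => by
    obtain ⟨m1, m2⟩ := (mem y).1 m.1
    obtain ⟨v, hv, w, hw, rfl⟩ := Submodule.mem_sup.1 m2
    exact add_mem (g3 (g2 (no ⟨by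
      simpa using sub_mem m1 ((old r u uq nq).1 hw.1).1, hv⟩))) hw
  have ge : St a pl S Q ≤ sl (Zg a (S ∪ insert q Q)) ((S ∪ insert q Q).erase q) L ⊓
      Bl a (dec (pl.P q)) := fun y m => ⟨(mem y).2 ⟨((old r u uq nq).1 m.1).1,
        Submodule.mem_sup_left m.2⟩, P022K.G2.B1.mono (dead m) le_top⟩
  haveI : Module.Finite F ↥(sl (Zg a (S ∪ insert q Q)) ((S ∪ insert q Q).erase q) L ⊓
      Bl a (dec (pl.P q))) := Submodule.finiteDimensional_of_le (S₂ := Zg a (S ∪ insert q Q))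
        (inf_le_left.trans inf_le_left)
  have := Submodule.finrank_mono le
  have := Submodule.finrank_mono ge
  omega

/-- the data of one step -/
theorem sd : Sd (Bl a ⊤) (St a pl S Q) (Rl a pl S Q) (Yb a pl S Q q ⊓ Ur a (pl.P pp))
    (LinearMap.proj (pl.σ q)) (LinearMap.proj (pl.τ q)) := by
  have h := l1 r uq
  have u2 := (url a pp _ r.toR0 (pl.ov pp (r.pr _ r.pm))).2.1
  haveI := zg_fin (rs1 r u uq nq)
  refine ⟨Submodule.finiteDimensional_of_le (S₂ := Zg a (S ∪ insert q Q))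
    (inf_le_left.trans inf_le_left), (gwl1 a pl S Q r u).2.1, fun x m => h.bl.1
      (P022K.G2.B1.mono m le_top) _ (phi_mem h.ov.1 h.ov.2.1 (pl.fb q uq.pr)), fun x => ?_,
    fun z m x k => ?_, fun x k => ?_, exw r u uq nq⟩
  · exact (and_congr_left' (old r u uq nq)).trans and_right_comm
  · obtain ⟨m1, m2⟩ := (old r u uq nq).1 m.1
    have := rcp r u uq nq k.1 k.2 m1 m.2
    rw [m2, P004S.wp_zero_right, zero_add, wp_skew, neg_eq_zero] at this
    exact this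
  · have := rcp r u uq nq k.1 k.2 k.1 (u2 k.2)
    rw [← two_mul] at this
    exact (mul_eq_zero.1 this).resolve_left two_ne

theorem st_new (b : F) : St a (up pl q b.val) S (insert q Q) = nw (Yb a pl S Q q ⊓ Ur a (pl.P pp))
    (LinearMap.proj (pl.σ q)) (LinearMap.proj (pl.τ q)) b := Submodule.ext fun x => by
  refine (and_congr_left' (new r u uq nq b.val)).trans ?_
  rw [ZMod.natCast_zmod_val]
  exact and_right_comm

end Ki

/-- **killing** -/
theorem kil1 : KIL1 := by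
  intro ι _ a pl S c r
  refine ⟨2 * ∑ i, dd (St (a i) pl S ∅) (Bl (a i) ⊤), fun G hG sp => ?_⟩
  let T := {p : Finset ℕ × Pl // Ag pl p.2 p.1 ∧ ∀ q ∈ p.1, G q}
  let d : T → ι → ℕ := fun t i => dd (St (a i) t.1.2 S t.1.1) (Bl (a i) ⊤)
  let R : T → T → Prop := fun t t' => t'.1.1.card ≤ t.1.1.card + 1
  have u : ∀ (t : T) i, ∀ q ∈ t.1.1, U1 (a i) t.1.2 S q := fun t i q m => by
    have k := hG q (t.2.2 q m) i
    obtain ⟨b, e⟩ := t.2.1.2.2.2 q m
    exact ⟨k.pr, k.out, by rw [e, map_mul, k.fr, one_mul, (l1 (r i) k).one _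
      (pow_mem (inP_le_dec (pl.gn q k.pr (np (r i) k)).1) b)]⟩
  have mv : ∀ (t : T) (φ : ι → X →ₗ[F] W), (∀ i, Bl (a i) ⊤ ≤ LinearMap.ker (φ i)) → Nonempty ι →
      ∃ (n : F → T) (Y : ι → Submodule F X) (e s : X →ₗ[F] W), (∀ b, R t (n b)) ∧ ∀ i,
        Sd (Bl (a i) ⊤) (St (a i) t.1.2 S t.1.1) (Rl (a i) t.1.2 S t.1.1) (Y i) e s ∧
        (∀ z ∈ Rl (a i) t.1.2 S t.1.1, e z = 0 ↔ φ i z = 0) ∧
        ∀ b, d (n b) i = dd (nw (Y i) e s b) (Bl (a i) ⊤) := fun t φ hφ ⟨i₀⟩ => by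
    obtain ⟨⟨Q, pl'⟩, ⟨a1, a2, a3, a4⟩, g⟩ := t
    obtain ⟨q, nq, gq, h⟩ := sp (S ∪ Q) (fun i => rs_u1 (r i) fun x m => hG x (g x m) i) φ hφ
    have nQ : q ∉ Q := fun m => nq (Finset.mem_union_right _ m)
    have e : pl'.σ q = pl.σ q := a3 q nQ
    have uq : ∀ i, U1 (a i) pl' S q := fun i =>
      ⟨(hG q gq i).pr, (hG q gq i).out, e ▸ (hG q gq i).fr⟩
    have uu := u ⟨(Q, pl'), ⟨a1, a2, a3, a4⟩, g⟩
    refine ⟨fun b => ⟨(insert q Q, up pl' q b.val), ⟨a1, a2, fun l m => ?_, fun l m => ?_⟩,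
      (Finset.forall_mem_insert _ _ _).2 ⟨gq, g⟩⟩, _, _, _, fun b => Finset.card_insert_le _ _,
      fun i => ⟨sd (r i) (uu i) (uq i) nQ, fun z m => ?_, fun b =>
        congrArg (dd · _) (st_new (r i) (uu i) (uq i) nQ b)⟩⟩
    · rw [Finset.mem_insert, not_or] at m
      exact (up_ne m.1).trans (a3 l m.2)
    · by_cases k : l = q
      · exact ⟨b.val, by rw [k, up_eq (np (r i₀) (uq i₀)), e, show pl'.τ = pl.τ from a2]⟩
      · rw [up_ne k]
        exact a4 l ((Finset.mem_insert.1 m).resolve_left k)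
    · exact e ▸ h i z m.1.1
  have gw := fun (t : T) i => gwl1 (a i) _ S _ (r i) (u t i)
  obtain ⟨t, k, z⟩ := ends (d := d) (R := R) (c := fun t => t.1.1.card) (fun _ _ h => h)
    (fun t i hi => game (β := F) c (by rw [ZMod.card]; exact pp_prime.two_le.lt_of_ne' Pp.odd)
      (fun t => by
        choose φ p using fun i => haveI := (gw t i).1
          pick (gw t i).2.1 (gw t i).2.2.1 (gw t i).2.2.2.1
        obtain ⟨n, Y, e, s, h1, h2⟩ := mv t φ (fun i => (p i).1) ⟨i⟩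
        refine ⟨n, h1, fun i => ?_⟩
        simp only [(h2 i).2.2]
        exact (h2 i).1.gen (gw t i).2.2.1 (h2 i).2.1 (p i))
      (fun t i j n e1 e0 => by
        choose φ p using fun i => haveI := (gw t i).1
          haveI := Submodule.finiteDimensional_of_le (gw t i).2.2.1
          pick0 (gw t i).2.2.2.1
        obtain ⟨m, Y, e, s, h1, h2⟩ := mv t φ (fun i => (gw t i).2.1.trans (p i).1) ⟨i⟩
        haveI := (h2 j).1.fs
        obtain ⟨b, hb⟩ := (h2 j).1.s3 ((dd_iff (gw t j).2.1).1 (e0 j n.symm))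
        have v := fun k => (h2 k).1.spe (gw t k).2.2.1 (h2 k).2.1 (p k) b
        refine ⟨m b, h1 b, ?_, ?_, fun k => ?_⟩
        · rw [(h2 i).2.2]
          exact ((show 0 < d t i by omega).trans_le (v i).1).ne'
        · haveI := (h2 j).1.fn (b := b)
          rw [(h2 j).2.2]
          exact (dd_iff (h2 j).1.bn).not.2 hb
        · rw [(h2 k).2.2]
          refine (v k).2.trans (show d t k + 1 ≤ 2 from ?_)
          by_cases o : k = i
          · rw [o, e1]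
          · rw [e0 k o]; omega) t hi)
    _ ⟨(∅, pl), ⟨rfl, rfl, fun _ _ => rfl, fun _ m => (Finset.notMem_empty _ m).elim⟩,
      fun _ m => (Finset.notMem_empty _ m).elim⟩ le_rfl
  refine ⟨t.1.1, t.1.2, t.2.1, by simpa using k, t.2.2, fun i => ?_⟩
  haveI := (gw t i).1
  haveI := Submodule.finiteDimensional_of_le (gw t i).2.2.1
  exact (dd_iff (gw t i).2.1).1 (z i)

end Vale.Agent.P014Y.Md
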