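import Vale.Agent.P014Y.Md.St
import Vale.Agent.P014Y.Md.Lv

/-! # P014Y, block MD: row LEV1 -/

set_option autoImplicit false
set_option linter.all false

noncomputable section

namespace Vale.Agent.P014Y.Md

open Vale.Agent.P014U

variable [Pp]

theorem lev1 : LEV1 := fun a S _ Γ r _ _ => ⟨4, lev0 a S Γ r⟩

end Vale.Agent.P014Y.Md
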