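import Vale.Agent.P014Y.Md.St
import Vale.Agent.P014Y.Md.Tw2

/-! # P014Y, block MD, row TWV1 (helper55) -/

set_option autoImplicit false
set_option linter.all false

namespace Vale.Agent.P014Y.Md

open Vale.Agent.P004K

/-- **row TWV1** -/
theorem twv1 (r1 : RC1) (r2 : RC2) (r3 : RC3) : TWV1 := fun e b dh =>
  Tv.twv0 b r1 r2 r3 dh.ir dh.two

end Vale.Agent.P014Y.Md
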