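import Vale.Agent.P014Y.Md.Rsd
import Vale.Agent.P014Y.Md.Kil
import Vale.Agent.P014Y.Md.Dsc
import Vale.Agent.P014Y.Md.Iso
import Vale.Agent.P014Y.Md.Lev
import Vale.Agent.P014Y.Md.Twv
import Vale.Agent.P014Y.Md.Chv0
import Vale.Agent.P014Y.Mu.Lzy
import Vale.Agent.P014Y.Mu.Cnt
import Vale.Agent.P014Y.Mu.Rse
import Vale.Agent.P014Y.Sui0
import Vale.Agent.P004K.Rc.All

/-! # P014Y, block MD: the export -/

set_option linter.all false

namespace Vale.Agent.P014Y.Md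

open P004K

theorem im8 : IM8 := fun _ i n => (Si.two _ i).resolve_left n

theorem chv1 : CHV1 := fun _ _ b pl pr dh =>
  Su.chv0 b pl pr dh.ir fun _ _ _ _ g u q => ⟨g, u, q⟩

theorem adp1_all : ADP1 := adp1 kil1 (fin1 gwl1) dsc1 iso1 lev1 Mu.cnt Mu.rse rsd chv1
  (twv1 x_rc1 x_rc2 x_rc3) (Mu.lzy x_rc1 x_rc2) Mu.twr

/-- **the tower for an irreducible image which is not everything** -/
theorem add0 : Top.ADD := add_of im8 adp1_all

end Vale.Agent.P014Y.Md
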