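import Vale.Agent.P014Y.Mu.St0

/-! # P014Y, block MD: words and rows of the descent at primes with trivial action -/

set_option autoImplicit false
set_option linter.all false

noncomputable section

namespace Vale.Agent.P014Y.Md

open NumberField Matrix
open Vale.Agent.P022 (Qb GQ)
open Vale.Agent.P022D.W (dec)
open Vale.Agent.P022E.GW (Ov)
open Vale.Agent.P022K.G2 (In)
open Vale.Agent.P014U
open L2 (M2)
open X4S (Pl)
open P004S (nu)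
open Mu

variable [Pp]

/-- **killed**, in words over the quadratic field; the line at `q` is given by `σ q` -/
def Kk1 (a : GQ →* M2) (Γ : Subgroup GQ) (S Q : Finset ℕ) (σ : ℕ → GQ) (P₀ : Ideal (𝓞 Qb)) : Prop :=
  ∀ y ∈ Cl a Γ, (∀ g ∈ Γ, g ∈ In ((S ∪ Q : Finset ℕ) : Set ℕ) → y g = 0) →
    (∀ l ∈ S, l ≠ pp → ∀ P, Ov l P → y ∈ Ur a P) →
    (∀ q ∈ Q, ∀ g, y (g * σ q * g⁻¹) = 0) → y ∈ Ur a P₀ →
    (∀ P, Ov pp P → y ∈ Ot a (dec P) (Ur a P)) → y ∈ Bl a Γ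

/-- descent from the quadratic field -/
def DSC1 : Prop := ∀ a (pl : Pl) (d : ℤ) (Γ : Subgroup GQ) (c : GQ) (S S' Q : Finset ℕ), Rs a S →
  Rs (tw d a) S' → S ⊆ S' → (∀ g, g ∈ Γ ↔ nu d g = 0) → c ∉ Γ → c * c = 1 →
  (∀ q ∈ Q, q.Prime) → (∀ l ∈ S ∪ Q, Sq Γ l) → Kl a (tw d a) pl S' Q →
  Kk1 a Γ S Q pl.σ (pl.P pp)

/-- transport along an isomorphism -/
def ISO1 : Prop := ∀ (a a' : GQ →* M2) (M : M2), IsUnit M.det → (∀ g, a' g * M = M * a g) →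
  ∀ pl S Q, St a pl S Q ≤ Bl a ⊤ → St a' pl S Q ≤ Bl a' ⊤

end Vale.Agent.P014Y.Md
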