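import Vale.Agent.P014Y.Md.K0
import Vale.Agent.P014Y.Md.Lo1
import Vale.Agent.P014Y.Mu.All0

/-! # P014Y, block MD, row FIN1: the use of parity -/

set_option autoImplicit false
set_option linter.all false

noncomputable section

namespace Vale.Agent.P014Y.Md

open Module
open scoped Classical
open Vale.Agent.P022 (GQ)
open Vale.Agent.P022D.W (dec)
open Vale.Agent.P014U
open L2 (M2)
open X4S (Pl)
open Mu Mu.Fin0

variable [Pp]

/-- **the use of parity** -/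
def FIN1 : Prop := ∀ a a' (pl : Pl) (S S' Q : Finset ℕ), Rs a S' → Rs a' S' → S ⊆ S' → pp ∈ S →
  Nf a ⊤ → Nf a' ⊤ → (∀ q ∈ Q, U1 a pl S' q) → (∀ l ∈ S ∪ Q, ∀ g ∈ dec (pl.P l), a' g = a g) →
  Pa a a' pl S S' → St a pl S' Q ≤ Bl a ⊤ → St a' pl S' Q ≤ Bl a' ⊤ → Kl a a' pl S' Q

namespace Fn

variable {a a' : GQ →* M2} {pl : Pl} {S S' Q : Finset ℕ} {q : ℕ}

theorem l1 (r : Rs a S) (u : U1 a pl S q) : Lo.L1 a q (pl.P q) :=
  Lo.l1_of r.toR0 (pl.ov q u.pr) (fun e => u.out (e ▸ r.pm)) (pl.fb q u.pr)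
    (r.inert (pl.ov q u.pr) u.out) u.fr

/-- parity for one module -/
theorem par (r : Rs a S') (hS : S ⊆ S') (pm : pp ∈ S) (u : ∀ q ∈ Q, U1 a pl S' q)
    {L : ℕ → Submodule F X}
    (hL : ∀ l ∈ S, Ot a (dec (pl.P l)) (L l) = L l) {M : Submodule F X}
    (hM : Ot a (dec (pl.P pp)) M = M) :
    Even (finrank F (Sf a pl S S' L) + finrank F ↥(Sb a pl S' Q ⊓ M) +
      ∑ l ∈ S' ∪ Q, dq (L1 a pl S L l) (L2 a pl Q M l)) := by
  obtain ⟨f, i⟩ := inv pl
  have r' := rs_un r fun q m => (u q m).pr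
  have lo : ∀ l ∈ S' ∪ Q, ∀ N, Ot a (dec (pl.P l)) N = N →
      ot (Cl a (dec (pl.P l))) (bt a (f l)) N = N := fun l m N e => by
    rw [(locq a l _ _ r.toR0 (pl.ov l (r'.pr l m)) (i.loc l (r'.pr l m))).2 N (e.ge.trans (ot_cl N)), e]
  have ul : ∀ l ∈ S' ∪ Q, l ≠ pp → Ot a (dec (pl.P l)) (Ur a (pl.P l)) = Ur a (pl.P l) :=
    fun l m n => ur_lag laga locq dim url r.toR0 (pl.ov l (r'.pr l m)) n (i.loc l (r'.pr l m))
  rw [← sl1 unq r hS fun q m => (u q m).pr, ← sl2 r.pm]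
  refine para F X _ _ _ _ _ _ _ two_ne (qs0 a pl _ f r' i) (fun l m => lo l m _ ?_)
    fun l m => lo l m _ ?_
  · rw [L1]
    split_ifs with e
    · exact hL l e
    · exact ul l m fun x => e (x ▸ pm)
  · rw [L2, Lc]
    split_ifs with e e'
    · exact e ▸ hM
    · exact (l1 r (u l e')).ot (pl.fb l (u l e').pr)
    · exact ul l m e

end Fn

open Fn in
/-- **row FIN1** -/
theorem fin1 (gwl : GWL1) : FIN1 := by
  rintro a a' pl S S' Q r r' hS pm n n' u e ⟨L, hL, od⟩ k k' x hx y hy s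
  have ep := e pp (Finset.mem_union_left _ pm)
  have u' : ∀ q ∈ Q, U1 a' pl S' q := fun q m => ⟨(u q m).pr, (u q m).out,
    (e q (Finset.mem_union_right _ m) _ (sg_mem pl (u q m).pr)).trans (u q m).fr⟩
  by_cases c : x ∈ Ur a (pl.P pp)
  · refine ⟨k ⟨hx.1, c⟩, k' ⟨hy.1, (ur_eq ep).ge ?_⟩⟩
    simpa using sub_mem s c
  exfalso
  obtain ⟨g1, g2, g3, g4, g5⟩ := gwl a pl S' Q r u
  obtain ⟨g1', g2', g3', g4', -⟩ := gwl a' pl S' Q r' u'
  set M := Ur a (pl.P pp) ⊔ Rl a pl S' Q with hM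
  have mo : M ≤ Ot a (dec (pl.P pp)) (Ur a (pl.P pp)) :=
    sup_le (url a pp _ r.toR0 (pl.ov pp pp_prime)).2.1 inf_le_right
  have e1 : Sb a pl S' Q ⊓ M = Rl a pl S' Q :=
    le_antisymm (inf_le_inf_left _ mo) (le_inf inf_le_left le_sup_right)
  have le2 : Sb a' pl S' Q ⊓ M ≤ Rl a' pl S' Q := inf_le_inf_left _ (by
    rw [ur_eq ep, ot_eq ep]; exact mo)
  have e2 : Sb a' pl S' Q ⊓ M = Rl a' pl S' Q := by
    refine Submodule.eq_of_le_of_finrank_le le2 ?_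
    haveI := Submodule.finiteDimensional_of_le le2
    rw [g4']
    refine Submodule.finrank_lt_finrank_of_lt (lt_of_le_of_ne (inf_le_inf_left _ ((ur_eq ep).le.trans
      le_sup_left)) fun h => c ?_)
    have hm : y ∈ Sb a' pl S' Q ⊓ M := ⟨hy.1, by
      simpa using sub_mem (Submodule.mem_sup_left s : x + y ∈ M) (Submodule.mem_sup_right hx)⟩
    simpa using sub_mem s ((ur_eq ep).le (h.ge hm).2)
  have p := par r hS pm u hL g5
  have p' := par r' hS pm u' (L := L) (M := M)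
    (fun l m => (ot_eq (e l (Finset.mem_union_left _ m)) _).trans (hL l m)) ((ot_eq ep _).trans g5)
  have sm : ∑ l ∈ S' ∪ Q, dq (L1 a' pl S L l) (L2 a' pl Q M l) =
      ∑ l ∈ S' ∪ Q, dq (L1 a pl S L l) (L2 a pl Q M l) := Finset.sum_congr rfl fun l m => by
    by_cases h : l ∈ S ∪ Q
    · rw [L1, L1, L2, L2, ur_eq (e l h), lc_eq ((rs_un r fun q m => (u q m).pr).pr l m) (e l h)]
    · have h1 : l ∉ S := fun x => h (Finset.mem_union_left _ x)
      have h2 : l ∉ Q := fun x => h (Finset.mem_union_right _ x)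
      have h3 : l ≠ pp := fun x => h1 (x ▸ pm)
      simp only [L1, L2, Lc, if_neg h1, if_neg h2, if_neg h3, dq_self]
  rw [e1, g4, le_antisymm k g2, dim_bl n] at p
  rw [e2, g4', le_antisymm k' g2', dim_bl n', sm] at p'
  rw [Nat.even_iff] at p p'
  rw [Nat.odd_iff] at od
  omega

end Vale.Agent.P014Y.Md
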