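import Vale.Agent.P014Y.Mu.Cv0
import Vale.Agent.P004F.Ch.Irr

/-! # P014Y, block MD: irreducible odd planes (density; the images modulo three) -/

set_option autoImplicit false
set_option linter.all false

open Matrix

namespace Vale.Agent.P014Y.Md.Im

open Vale.Agent.P014U.Mu.Sa

section

variable {p : ℕ} [Fact p.Prime] {G ι : Type} [Group G]

/-- **density** -/
theorem dn [Finite ι] (p2 : p ≠ 2) {a : ι → G →* Matrix (Fin 2) (Fin 2) (ZMod p)}
    (ir : ∀ i, Irr (a i)) {c : G} (cc : c * c = 1) (dc : ∀ i, (a i c).det = -1)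
    (df : ∀ i j, i ≠ j → ∃ g, (a i g).det = (a j g).det ∧ (a i g).trace ≠ (a j g).trace)
    (A : ι → Matrix (Fin 2) (Fin 2) (ZMod p)) :
    A ∈ Submodule.span (ZMod p) (Set.range fun g i => a i g) := by
  classical
  have := Fintype.ofFinite ι
  have h2 : (2 : ZMod p) ≠ 0 := fun e => neg_ne p2 (by linear_combination -e)
  generalize hL : Submodule.span (ZMod p) (Set.range fun g i => a i g) = L
  have m1 g : (fun i => a i g) ∈ L := hL ▸ Submodule.subset_span ⟨g, rfl⟩
  have ml g {B} (m : B ∈ L) : (fun i => a i g) * B ∈ L := by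
    rw [← hL] at m
    refine Submodule.span_induction ?_ (by simp) (fun x y _ _ u v => ?_) (fun s x _ u => ?_) m
    · rintro _ ⟨h, rfl⟩
      exact (congrArg (· ∈ L) (funext fun i => map_mul (a i) g h)).mp (m1 (g * h))
    · rw [mul_add]; exact add_mem u v
    · rw [mul_smul_comm]; exact L.smul_mem s u
  have mu g i {B : Matrix (Fin 2) (Fin 2) (ZMod p)} (h : IsUnit B) : IsUnit (a i g * B) :=
    ((Group.isUnit g).map (a i)).mul h
  have k i (s : Finset ι) : ∃ B ∈ L, IsUnit (B i) ∧ ∀ j ∈ s, j ≠ i → B j = 0 := by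
    induction s using Finset.induction_on with
    | empty => exact ⟨_, m1 1, by simp, by simp⟩
    | insert j s _ ih =>
      obtain ⟨B, m, u, h⟩ := ih
      by_cases ji : j = i
      · exact ⟨B, m, u, Finset.forall_mem_insert _ _ _ |>.2 ⟨fun q => (q ji).elim, h⟩⟩
      obtain ⟨g, d, t⟩ := df j i ji
      have q l : ((fun i => a i g) * ((fun i => a i g) * B) - (a j g).trace • ((fun i => a i g) * B) +
          (a j g).det • B) l = ((a l g).trace - (a j g).trace) • (a l g * B l) +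
          ((a j g).det - (a l g).det) • B l := by
        simp only [Pi.add_apply, Pi.sub_apply, Pi.smul_apply, Pi.mul_apply, ← mul_assoc, ch2, sub_mul,
          smul_mul_assoc, one_mul, sub_smul]
        abel
      refine ⟨_, add_mem (sub_mem (ml g (ml g m)) (L.smul_mem (a j g).trace (ml g m)))
        (L.smul_mem (a j g).det m), ?_,
        Finset.forall_mem_insert _ _ _ |>.2 ⟨fun _ => by simp [q], fun l ml e => by simp [q, h l ml e]⟩⟩
      rw [q, d, sub_self, zero_smul, add_zero]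
      exact (mu g i u).smul (Units.mk0 _ (sub_ne_zero.2 t.symm))
  rw [← Finset.univ_sum_single A]
  refine sum_mem fun i _ => ?_
  obtain ⟨B, m, ⟨u, e⟩, h⟩ := k i Finset.univ
  have q (X) (mX : X ∈ Submodule.span (ZMod p) (Set.range (a i))) : Pi.single i (X * B i) ∈ L := by
    refine Submodule.span_induction ?_ (by simp) (fun x y _ _ u v => ?_) (fun s x _ u => ?_) mX
    · rintro _ ⟨g, rfl⟩
      refine (congrArg (· ∈ L) (funext fun j => ?_)).mp (ml g m)
      by_cases ji : j = i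
      · subst ji; simp
      · simp [ji, h j (Finset.mem_univ _) ji]
    · rw [add_mul, Pi.single_add]; exact add_mem u v
    · rw [smul_mul_assoc, Pi.single_smul]; exact L.smul_mem s u
  have := q (A i * u⁻¹) (P004F.Ch.burn (a i) h2 (ir i) cc (dc i) ▸ trivial)
  rwa [← e, Units.inv_mul_cancel_right] at this

/-- the image is not abelian -/
theorem nab (p2 : p ≠ 2) {a : G →* Matrix (Fin 2) (Fin 2) (ZMod p)} (ir : Irr a) {c : G}
    (cc : c * c = 1) (dc : (a c).det = -1) : ∃ g, a c * a g ≠ a g * a c := by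
  obtain ⟨e, e0, e1, e2⟩ := line p2 (A := a c) (by rw [← map_mul, cc, map_one]) dc
  obtain ⟨g, hg⟩ := ir e e0
  refine ⟨g, fun k => (e2 (a g *ᵥ e) ?_).elim hg⟩
  rw [mulVec_mulVec, k, ← mulVec_mulVec, e1]

end

abbrev G3 : Type := Matrix (Fin 2) (Fin 2) (ZMod 3)

theorem d1 : ∀ K : G3, K.det = 1 → K = 1 ∨ K = -1 ∨ K ^ 2 = -1 ∨ K ^ 3 = -1 ∨ K ^ 3 = 1 := by
  decide +kernel

set_option synthInstance.maxSize 4096 in
theorem d2 : ∀ C : G3, C * C = 1 → C.det = -1 → ∃ J : G3, J.det = 1 ∧ J * C = -(C * J) ∧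
    ∀ H : G3, H.det = 1 → (H * C).trace = 0 → J * H = H * J ∨ H ^ 4 ≠ 1 ∧ (H ^ 4) ^ 3 = 1 := by
  decide +kernel

theorem d3 : ∀ T : G3, T ≠ 1 → T ^ 3 = 1 → T.det = 1 ∧ ∃ v : Fin 2 → ZMod 3, v ≠ 0 ∧
    ∀ B : G3, (∀ s : ZMod 3, B *ᵥ v ≠ s • v) → B.trace = 0 → (T * B).trace ≠ 0 := by
  decide +kernel

theorem d4 : ∀ x : ZMod 3, x ≠ 0 → x = 1 ∨ x = -1 := by decide

variable {G : Type} [Group G] {a : G →* G3} {c : G}

theorem det_pm (a : G →* G3) (g : G) : (a g).det = 1 ∨ (a g).det = -1 :=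
  d4 _ (left_ne_zero_of_mul_eq_one (b := (a g⁻¹).det) (by
    rw [← det_mul, ← map_mul, mul_inv_cancel, map_one, det_one]))

/-- the image contains `-1` -/
theorem neg (ir : Irr a) (cc : c * c = 1) (dc : (a c).det = -1) : ∃ g, a g = -1 := by
  obtain ⟨g, hg⟩ := nab (by decide) ir cc dc
  have e : a (c * g * (g * c)⁻¹) * (a g * a c) = a c * a g := by
    rw [← map_mul, ← map_mul, inv_mul_cancel_right, map_mul]
  have d := congrArg det e
  rw [det_mul, det_mul, det_mul, mul_comm (a c).det] at d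
  have n : (a g).det * (a c).det ≠ 0 := by rcases det_pm a g with h | h <;> rw [h, dc] <;> decide
  generalize c * g * (g * c)⁻¹ = k at *
  by_cases k1 : a k = 1
  · exact (hg (by rw [← e, k1, one_mul])).elim
  rcases d1 _ ((mul_eq_right₀ n).1 d) with h | h | h | h | h
  exacts [(k1 h).elim, ⟨k, h⟩, ⟨k ^ 2, map_pow a k 2 ▸ h⟩, ⟨k ^ 3, map_pow a k 3 ▸ h⟩,
    neg_one ir k1 h]

/-- **the two cases** -/
theorem two (ir : Irr a) (cc : c * c = 1) (dc : (a c).det = -1) :
    (∃ g, (a g).det = -1 ∧ (a g).trace ≠ 0) ∨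
      ∃ J : G3, J.det = 1 ∧ ∀ g, J * a g = (a g).det • a g * J := by
  refine or_iff_not_imp_left.2 fun n => ?_
  push Not at n
  have c2 : a c * a c = 1 := by rw [← map_mul, cc, map_one]
  obtain ⟨J, j1, j2, j3⟩ := d2 _ c2 dc
  have k g (d : (a g).det = 1) : J * a g = a g * J := by
    refine (j3 _ d (map_mul a g c ▸ n _ (by rw [map_mul, det_mul, d, dc, one_mul]))).resolve_right
      fun ⟨t1, t2⟩ => ?_
    obtain ⟨t3, v, v0, hv⟩ := d3 _ t1 t2
    obtain ⟨x, dx, hx⟩ : ∃ x, (a x).det = -1 ∧ ∀ s : ZMod 3, a x *ᵥ v ≠ s • v := by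
      obtain ⟨x, hx⟩ := ir v v0
      refine (det_pm a x).elim (fun dx => ?_) fun dx => ⟨x, dx, hx⟩
      by_contra! q
      obtain ⟨s, hs⟩ := q c dc
      obtain ⟨r, hr⟩ := q (c * x) (by rw [map_mul, det_mul, dx, dc, mul_one])
      refine hx (r * s) ?_
      rw [mul_smul, ← hs, ← mulVec_smul, ← hr, ← mv, ← mul_assoc, cc, one_mul]
    exact hv _ hx (n x dx) (by
      rw [← map_pow, ← map_mul]
      exact n _ (by rw [map_mul, map_pow, det_mul, t3, dx, one_mul]))
  refine ⟨J, j1, fun g => (det_pm a g).elim (fun d => by rw [k g d, d, one_smul]) fun d => ?_⟩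
  have := k (g * c) (by rw [map_mul, det_mul, d, dc, neg_mul_neg, one_mul])
  rw [map_mul, mul_assoc, ← neg_neg (a c * J), ← j2] at this
  rw [d, neg_one_smul, ← mul_one (J * _), ← c2, ← mul_assoc, mul_assoc J, this, mul_neg, neg_mul,
    neg_mul, mul_assoc, mul_assoc, c2, mul_one]

end Vale.Agent.P014Y.Md.Im
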