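import Vale.Agent.P014Y.Md.St
import Vale.Agent.P014Y.Md.Img1

/-! # P014Y, block MD, row RSD: the curve, the field, the twist -/

set_option autoImplicit false
set_option linter.all false

namespace Vale.Agent.P014Y.Md

open Matrix
open Vale.Agent.P014U
open P014Y.Mu

/-- **row RSD** -/
theorem rsd : RSD := fun e dh => by
  refine ⟨fun b v h => ?_, fun e' pr => ?_⟩
  · obtain ⟨g, hg⟩ := Im.neg dh.ir (Im.cc b) (Im.dc b)
    obtain ⟨y, y1, y2⟩ := Im.ex_im b (.inl rfl) g
    have c := h y ((Cv.ep_one b).1 y1)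
    rw [y2, hg, neg_mulVec, one_mulVec] at c
    exact (smul_eq_zero.1 (show (2 : ZMod 3) • v = 0 by
      rw [two_smul]; exact (congrArg (· + v) c.symm).trans (neg_add_cancel v))).resolve_left
        (by decide)
  obtain ⟨Y, u, k⟩ := Tp.Ro.pr pr
  have c g : rb e' g = (rb e g).det • (Y * rb e g * Y⁻¹) := by
    have c : rb e' g * Y = Y * (rb e g).det • rb e g := k g
    rw [← mul_nonsing_inv_cancel_right Y (rb e' g) u, c, mul_smul_comm, smul_mul_assoc]
  have d g : (rb e g).det * (rb e g).det = 1 := by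
    rcases Im.det_pm (rb e) g with h | h <;> rw [h] <;> simp
  refine ⟨⟨fun v n => ?_, fun g => ?_⟩, fun g t => ?_⟩
  · obtain ⟨g, hg⟩ := dh.ir (Y⁻¹ *ᵥ v) fun c => n (by
      rw [← one_mulVec v, ← mul_nonsing_inv _ u, ← mulVec_mulVec, c, mulVec_zero])
    refine ⟨g, fun s x => hg ((rb e g).det * s) ?_⟩
    rw [mul_smul, ← mulVec_smul, ← x, c, smul_mulVec, mulVec_smul, smul_smul, d, one_smul,
      mulVec_mulVec, mulVec_mulVec, mul_assoc, nonsing_inv_mul_cancel_left _ _ u]
  · rw [← map_pow, c, map_pow, dh.two, det_one, one_smul, mul_one, mul_nonsing_inv _ u]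
  · rw [c, trace_smul, trace_mul_cycle, nonsing_inv_mul _ u, one_mul, t, smul_zero]

end Vale.Agent.P014Y.Md
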