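import Vale.Agent.P014Y.Md.Fin
import Vale.Agent.P014Y.Md.D0
import Vale.Agent.P014Y.St2

/-! # P014Y, block MD: irreducible images of order prime to three (words, rows, glue) -/

set_option autoImplicit false
set_option linter.all false

noncomputable section

namespace Vale.Agent.P014Y.Md

open NumberField Matrix Module
open scoped Classical
open Vale.Agent.P022 (Qb GQ)
open Vale.Agent.P022D.W (dec)
open Vale.Agent.P022E.GW (Ov Fb)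
open Vale.Agent.P014U
open L2 (W M2)
open X4S (Pl)
open P004S (nu)
open P014Y.F (Crv Fld)
open Top (Sur Pr Pe ADD)
open Tp (Lz Ad2)
open Mu

section

variable [Pp]

/-- no stable line -/
def Ir (a : GQ →* M2) : Prop := ∀ v : W, v ≠ 0 → ∃ g, ∀ t : F, a g *ᵥ v ≠ t • v

/-- no stable line, and the image is killed by eight -/
structure Dh (a : GQ →* M2) : Prop where
  ir : Ir a
  two : ∀ g, a g ^ 8 = 1

/-- a Frobenius element above `q` -/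
def Fq (q : ℕ) (σ : GQ) : Prop := ∃ P, Ov q P ∧ Fb q P σ

/-- **from the residual groups to all levels** -/
def LEV1 : Prop := ∀ a S (d : ℤ) (Γ : Subgroup GQ), Rs a S → (∀ g, g ∈ Γ ↔ nu d g = 0) → Nf a Γ →
  ∃ m : ℕ, ∀ N c χ (Q : Finset ℕ) (σ : ℕ → GQ) P₀, 0 < N → Ly Γ S N c χ → Ov pp P₀ →
  (∀ q ∈ Q, q ∣ c ∧ Fq q (σ q) ∧ a (σ q) = 1 ∧ ∀ g, pp ∣ χ (g * σ q * g⁻¹)) →
  (∀ q : ℕ, q.Prime → q ∣ c → q ∈ Q ∨ Tz a q) → Kk1 a Γ S Q σ P₀ → ∀ J ≤ pp ^ N,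
  ∀ x ∈ Zx a Γ (S ∪ c.primeFactors) J χ P₀, ∀ g, tb J ^ m • x g = 0

end

/-- the two representations -/
def fr2 (e : Crv) (δ : ℕ) : Fin 2 → GQ →* M2 := ![rb e, tw (-δ) (rb e)]

/-- the primes which kill -/
structure G1 {e : Crv} (b : Fld e) (e' : Crv) (pl : Pl) (m n : ℕ) (E : Finset ℕ) (q : ℕ) : Prop
    extends Gt b n E q where
  up : ∀ i, U1 (fr e e' b.δ' i) pl (Sd b) q
  gq : Gq e m q

/-- the image is killed by eight -/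
def IM8 : Prop := ∀ e : Crv, Ir (rb e) → ¬ Sur e.par.disc → ∀ g, rb e g ^ 8 = 1

/-- the curve, the field, the twist -/
def RSD : Prop := ∀ e : Crv, Dh (rb e) → (∀ b : Fld e, Nf (rb e) b.Γ) ∧
  ∀ e', Pr (-3) e e' → Dh (rb e') ∧ ∀ g, (rb e g).trace = 0 → (rb e' g).trace = 0

/-- **the supply of primes** -/
def CHV1 : Prop := ∀ (e e' : Crv) (b : Fld e) (pl : Pl), Pr (-3) e e' → Dh (rb e) → ∃ m : ℕ,
  (∀ n E, Sp2 (fr e e' b.δ') pl (G1 b e' pl m n E)) ∨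
  ∃ M : M2, IsUnit M.det ∧ (∀ g, rb e' g * M = M * rb e g) ∧
    ∀ n E, Sp2 (fr2 e b.δ') pl (G1 b e' pl m n E)

/-- **the tower** -/
def TWV1 : Prop := ∀ (e : Crv) (b : Fld e), Dh (rb e) → ∃ (E : Finset ℕ) (d : ℕ),
  ∀ (k : ℕ) (Q : Finset ℕ) (σ : ℕ → GQ), (∀ q ∈ Q, Gt b (k + d) E q ∧ Fq q (σ q)) →
  ∃ (c : ℕ) (χ : GQ → ZMod (3 * 3 ^ k)), Lz b k c χ ∧
    (∀ q ∈ Q, q ∣ c ∧ ∀ g, 3 ∣ (χ (g * σ q * g⁻¹)).val) ∧ c.primeFactors.card ≤ Q.card + d ∧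
    ∀ q : ℕ, q.Prime → q ∣ c → Gt b (k + 1) ∅ q ∧ (q ∈ Q ∨ Tz (rb e) q)

/-- **the export: one tower for the two curves** -/
def ADP1 : Prop := ∀ (e e' : Crv) (b : Fld e) (b' : Fld e'), Pr (-3) e e' → b.Same b' →
  Dh (rb e) → Pe b → Pe b' → Ad2 b b'

/-! ### glue -/

theorem add_of (h8 : IM8) (h : ADP1) : ADD := fun e e' b b' pr sm ir ns =>
  h e e' b b' pr sm ⟨ir, h8 e ir ns⟩

theorem u1_ag {a : GQ →* M2} {pl pl' : Pl} {S Q : Finset ℕ} {q : ℕ} (r : Rs a S) (g : Ag pl pl' Q)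
    (m : q ∈ Q) (u : U1 a pl S q) : U1 a pl' S q := ⟨u.pr, u.out, by
  obtain ⟨b, e⟩ := g.2.2.2 q m
  rw [e, map_mul, map_pow, u.fr, r.inert (pl.ov q u.pr) u.out _
    (pl.gn q u.pr fun e => u.out (e ▸ r.pm)).1, one_pow, one_mul]⟩

/-- one curve -/
theorem one (hF : FIN1) (hD : DSC1) (hR : RSE) {e : Crv} (b : Fld e) (pl : Pl)
    (hp : ∀ p ∈ e.S, pl.P p = e.P p) (nf : Nf (rb e) b.Γ) (pa : Pe b) (Q : Finset ℕ)
    (up : ∀ q ∈ Q, U1 (rb e) pl (Sd b) q ∧ Sq b.Γ q) (k : St (rb e) pl (Sd b) Q ≤ Bl (rb e) ⊤)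
    (k' : St (tw (-b.δ') (rb e)) pl (Sd b) Q ≤ Bl (tw (-b.δ') (rb e)) ⊤) :
    Kk1 (rb e) b.Γ e.S.toFinset Q pl.σ (e.P pp) := by
  obtain ⟨r0, -, h⟩ := hR e
  obtain ⟨r1, r2, mem, out, cc, sq, -⟩ := h b
  have s : ∀ l ∈ e.S.toFinset ∪ Q, Sq b.Γ l := fun l m => (Finset.mem_union.1 m).elim
    (fun m => sq l (List.mem_toFinset.1 m)) fun m => (up l m).2
  have pr : ∀ l ∈ e.S.toFinset ∪ Q, l.Prime := fun l m => (Finset.mem_union.1 m).elim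
    (r0.pr l) fun m => (up l m).1.pr
  rw [← hp pp e.pm]
  exact hD _ pl _ _ _ _ _ Q r0 r2 Finset.subset_union_left mem out cc (fun q m => (up q m).1.pr) s
    (hF _ _ pl _ _ Q r1 r2 Finset.subset_union_left r0.pm
      (fun v h => nf v fun g _ => h g trivial)
      (fun v h => nf v fun g m => tw_eq (a := rb e) ((mem g).1 m) ▸ h g trivial)
      (fun q m => (up q m).1)
      (fun l m g i => tw_eq ((mem g).1 (s l m _ (pl.ov l (pr l m)) i))) (pa pl hp) k k')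

/-- killing the four modules -/
theorem four (hK : KIL1) (hI : ISO1) (hV : CHV1) {e e' : Crv} (b : Fld e) (pl : Pl)
    (pr : Pr (-3) e e') (dh : Dh (rb e)) (r : ∀ i, Rs (fr e e' b.δ' i) (Sd b)) :
    ∃ m k : ℕ, ∀ n E, ∃ (Q : Finset ℕ) (pl' : Pl), Ag pl pl' Q ∧ Q.card ≤ k ∧
      (∀ q ∈ Q, G1 b e' pl m n E q) ∧
      ∀ i, St (fr e e' b.δ' i) pl' (Sd b) Q ≤ Bl (fr e e' b.δ' i) ⊤ := by
  obtain ⟨m, h | ⟨M, d, c, h⟩⟩ := hV e e' b pl pr dh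
  · obtain ⟨k, hk⟩ := hK (Fin 4) _ pl _ (by simp) r
    exact ⟨m, k, fun n E => hk _ (fun q g => g.up) (h n E)⟩
  obtain ⟨k, hk⟩ := hK (Fin 2) (fr2 e b.δ') pl (Sd b) (by simp) fun i => by
    fin_cases i
    exacts [r 0, r 1]
  refine ⟨m, k, fun n E => ?_⟩
  obtain ⟨Q, pl', q0, q1, q2, q3⟩ := hk _ (fun q g i => by
    fin_cases i
    exacts [g.up 0, g.up 1]) (h n E)
  refine ⟨Q, pl', q0, q1, q2, fun i => ?_⟩
  fin_cases i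
  · exact q3 0
  · exact q3 1
  · exact hI _ _ M d c _ _ _ (q3 0)
  · refine hI (tw (-b.δ') (rb e)) (tw (-b.δ') (rb e')) M d (fun g => ?_) _ _ _ (q3 1)
    show ((_ : F) • rb e' g) * M = M * ((_ : F) • rb e g)
    rw [smul_mul_assoc, mul_smul_comm, c]

/-- **the export** -/
theorem adp1 (hK : KIL1) (hF : FIN1) (hD : DSC1) (hI : ISO1) (hL : LEV1) (hC : CNT) (hR : RSE)
    (hS : RSD) (hV : CHV1) (hT : TWV1) (hY : LZY) (hW : TWR) : ADP1 :=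
    fun e e' b b' pr sm dh p p' => by
  obtain ⟨r0, ⟨pl, hp⟩, h⟩ := hR e
  obtain ⟨r1, r2, mem, -⟩ := h b
  obtain ⟨r0', -, h'⟩ := hR e'
  obtain ⟨r1', r2', mem', -⟩ := h' b'
  obtain ⟨nf, k⟩ := hS e dh
  obtain ⟨dh', tz⟩ := k e' pr
  have nf' := (hS e' dh').1 b'
  have sd : Sd b' = Sd b := by rw [Sd, Sd, pr.S, sm.δ']
  have rs : ∀ i, Rs (fr e e' b.δ' i) (Sd b) := fun i => by
    fin_cases i
    exacts [r1, r2, sd ▸ r1', sd ▸ sm.δ' ▸ r2']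
  obtain ⟨m, k, hk⟩ := four hK hI hV b pl pr dh rs
  obtain ⟨E, d, hd⟩ := hT e b dh
  obtain ⟨i, hi⟩ := hL _ _ _ _ r0 mem (nf b)
  obtain ⟨i', hi'⟩ := hL _ _ _ _ r0' mem' nf'
  obtain ⟨B, hb⟩ := hC e b (k + d) (i + i')
  obtain ⟨B', hb'⟩ := hC e' b' (k + d) (i + i')
  refine ⟨m + k + d + 1, B + B', i + i', fun n => ?_⟩
  obtain ⟨Q, pl', ag, q1, q2, q3⟩ := hk (n + 1 + d) E
  have fq : ∀ q ∈ Q, Fq q (pl'.σ q) := fun q h =>
    ⟨_, pl'.ov q (q2 q h).pr, pl'.fb q (q2 q h).pr⟩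
  have up := fun q h i => u1_ag (rs i) ag h ((q2 q h).up i)
  have hp' : ∀ p ∈ e.S, pl'.P p = e.P p := ag.1 ▸ hp
  obtain ⟨c, χ, lz, c1, c2, c3⟩ := hd (n + 1) Q pl'.σ fun q h => ⟨(q2 q h).toGt, fq q h⟩
  have ly := hY e b _ c χ lz fun q h s => (c3 q h s).1
  have k1 := hi _ c _ Q pl'.σ _ (Nat.succ_pos _) ly (e.ov _ e.pm)
    (fun q h => ⟨(c1 q h).1, fq q h, (up q h 0).fr, (c1 q h).2⟩) (fun q h s => (c3 q h s).2)
    (one hF hD hR b pl' hp' (nf b) p Q (fun q h => ⟨up q h 0, (q2 q h).sq⟩) (q3 0) (q3 1))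
  have k2 := hi' _ c _ Q pl'.σ _ (Nat.succ_pos _) (pr.S ▸ sm.Γ ▸ ly) (e'.ov _ e'.pm)
    (fun q h => ⟨(c1 q h).1, fq q h, (up q h 2).fr, (c1 q h).2⟩)
    (fun q h s => (c3 q h s).2.imp_right fun t P φ o f => tz _ (t P φ o f))
    (one hF hD hR b' pl' (pr.S ▸ pr.P ▸ hp') nf' p' Q
      (fun q h => ⟨sd ▸ up q h 2, sm.Γ ▸ (q2 q h).sq⟩) (sd ▸ q3 2) (sd ▸ sm.δ' ▸ q3 3))
  obtain ⟨u, v⟩ := hb c (fun g => (χ g).val) (by omega)
  obtain ⟨u', v'⟩ := hb' c (fun g => (χ g).val) (by omega)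
  have w := fun J (l : J ≤ 3 * 3 ^ (n + 1)) => v J fun x a g =>
    pw_up (k1 J (l.trans_eq (pow_succ' _ _).symm) x a g) (i.le_add_right i')
  have w' := fun J (l : J ≤ 3 * 3 ^ (n + 1)) => v' J fun x a g =>
    pw_up (k2 J (l.trans_eq (pow_succ' _ _).symm) x a g) (i'.le_add_left i)
  refine ⟨c, χ, lz, fun _ => hW e e' b b' pr sm _ n c χ (Nat.succ_pos _) lz (by omega)
    fun q h s => ⟨(c3 q h s).1, (c3 q h s).2.imp_left fun a => (q2 q a).gq.mono (by omega)⟩,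
    fun J l => ⟨(w J l).1, ((w J l).2.trans u).trans (Nat.pow_le_pow_right three_pos
      (B.le_add_right B')), (w' J l).1, ((w' J l).2.trans u').trans
      (Nat.pow_le_pow_right three_pos (B'.le_add_left B))⟩,
    fun _ => ⟨(w _ le_rfl).2, (w' _ le_rfl).2⟩⟩

end Vale.Agent.P014Y.Md
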