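import Vale.Agent.P014Y.Mu.Twv

/-! # P014Y, block MD: the tower with prescribed values at the primes of the tower (helper55) -/

set_option autoImplicit false
set_option linter.all false

noncomputable section

open NumberField Matrix
open Vale.Agent.P022 (Qb GQ GK)
open Vale.Agent.P027M.S (Inert)
open Vale.Agent.P022D.W (dec)
open Vale.Agent.P022E.GW (Ov Fb)

namespace Vale.Agent.P014Y.F.Pt

open P004K P004R P014U
open P004F.Pt (Dh fx_mul fx_pow fx_inv)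

variable {K : Type} [Field K] [NumberField K] {j : K →+* Qb} {δ n : ℕ} {g : GQ}

theorem pw_fix {N : ℕ} (f : Fx {1} N g) {y : Qb} (h : g (y ^ N) = y ^ N) : (g ^ N) y = y := by
  by_cases y0 : y = 0
  · rw [y0, map_zero]
  have e : (g y / y) ^ N = 1 := by rw [div_pow, ← map_pow, h, div_self (pow_ne_zero _ y0)]
  have k (i : ℕ) : (g ^ i) y = (g y / y) ^ i * y := by
    induction i with
    | zero => simp
    | succ i ih =>
      rw [pow_succ', AlgEquiv.mul_apply, ih, map_mul, map_pow, f _ e, pow_succ, mul_assoc,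
        div_mul_cancel₀ _ y0]
  rw [k, e, one_mul]

variable [Pp]

theorem fx_lift (f : Fx {1} pp g) (n : ℕ) : Fx {1} (pp ^ (n + 1)) (g ^ pp ^ n) := by
  induction n with
  | zero => simpa using f
  | succ n ih =>
    intro y hy
    rw [pow_succ pp n, pow_mul]
    exact pw_fix (fx_pow f _) (ih _ (by rwa [← pow_mul, ← pow_succ']))

/-- high powers fix all the roots -/
theorem fx_pw (hg : g ∈ GK j) (f : Fx {1} pp g) (n : ℕ) :
    Fx (N1 j) (pp ^ (n + 1)) (g ^ (pp ^ 2) ^ (n + 1)) := by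
  rw [show (pp ^ 2) ^ (n + 1) = pp ^ n * pp ^ (n + 1) * pp by ring, pow_mul, pow_mul]
  exact fx_pow (fun y hy => pw_fix (fx_lift f n) (hy.2.1 _ (pow_mem hg _))) _

/-- **two more primes**: prescribed values also at the primes of the tower -/
theorem twr2 (h1 : RC1) (h2 : RC2) (h3 : RC3) (kd : Kd j δ) {S Q : Finset ℕ}
    {P : ℕ → Ideal (𝓞 Qb)} {φ : ℕ → GQ}
    (hS : ∀ p ∈ S ∪ Q, Ov p (P p) ∧ dec (P p) ≤ GK j ∧ Fb p (P p) (φ p)) (S2 : pp ∈ S)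
    (b : ℕ → ZMod (pp ^ (n + 1)))
    (hQ : ∀ l ∈ Q, l.Prime ∧ l ∉ S ∧ l % pp ^ (n + 1) = 1 ∧ ∀ P, Ov l P → dec P ≤ GK j)
    {U : Subgroup GQ} (hU : IsOpen (U : Set GQ)) {G : GQ → Prop}
    (stb : ∀ g, ∀ u ∈ U, G g → G (g * u))
    (ex : ∀ h ∈ GK j, Fx {1} (pp ^ (n + 1)) h →
      ∃ k ∈ GK j, Fx (N1 j) (pp ^ (n + 1)) k ∧ G (h * k)) (T : Finset ℕ) :
    ∃ (R : Finset ℕ) (e : GQ → ZMod (pp ^ (n + 1))), Q ⊆ R ∧ R.card = Q.card + 2 ∧
      (∀ q ∈ R, q ∉ Q → q ∉ T ∧ q ∉ S ∧ ¬ q ∣ δ ∧ q % pp ^ (n + 1) = 1 ∧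
        ∃ P ψ, Ov q P ∧ ψ ∈ GK j ∧ Fb q P ψ ∧ G ψ) ∧ Dh j (∏ l ∈ R, l) e ∧
      (∀ l ∈ R, ∀ P', Ov l P' → ∃ τ ∈ GK j, Inert P' τ ∧ e τ = 1) ∧
      ∀ p ∈ S ∪ Q, e (φ p) = b p := by
  classical
  obtain ⟨q, P₀, ψ, e, qT, qS, qQ, qδ, o, m, f, md, t, D, rm, un⟩ := twr h2 h3 kd
    (fun p a => hS p (Finset.mem_union_left _ a)) S2 b hQ hU stb ex T
  obtain ⟨q', P₁, ψ', e', qT', qS', -, qδ', o', m', f', md', t', D', rm', un'⟩ := twr h2 h3 kd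
    (Q := ∅) hS (Finset.mem_union_left _ S2) (fun p => b p - e (φ p)) (by simp) hU stb ex (insert q T)
  rw [Finset.mem_insert, not_or] at qT'
  rw [Finset.mem_union, not_or] at qS'
  rw [Finset.prod_insert (Finset.notMem_empty _), Finset.prod_empty, mul_one] at D'
  have nq : q' ∉ insert q Q := fun a => (Finset.mem_insert.1 a).elim qT'.1 qS'.2
  have pr (l) (a : l ∈ insert q Q) : l.Prime :=
    (Finset.mem_insert.1 a).elim (· ▸ o.1) fun a => (hQ l a).1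
  have c0 : 0 < ∏ l ∈ insert q Q, l := Finset.prod_pos fun l a => (pr l a).pos
  refine ⟨insert q' (insert q Q), e + e', fun l a => by simp [a], by
    rw [Finset.card_insert_of_notMem nq, Finset.card_insert_of_notMem qQ], fun l a lQ => ?_,
    ⟨fun x a y a' => by simp only [Pi.add_apply, D.add x a y a', D'.add x a y a']; abel,
      fun x a => ?_⟩, fun l a P' ol => ?_, fun p a => ?_⟩
  · rcases Finset.mem_insert.1 a with rfl | a
    · exact ⟨qT'.2, qS'.1, qδ', md', _, _, o', m', f', t'⟩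
    · obtain rfl := (Finset.mem_insert.1 a).resolve_right lQ
      exact ⟨qT, qS, qδ, md, _, _, o, m, f, t⟩
  · rw [Finset.prod_insert nq] at a
    rw [Pi.add_apply, D'.ker x ((h1 K j kd.iq _ o'.1.pos).2.2.2.2.2 _ c0 a),
      D.ker x ((h1 K j kd.iq _ c0).2.2.2.2.2 _ o'.1.pos (mul_comm q' _ ▸ a)), add_zero]
  · rcases Finset.mem_insert.1 a with rfl | a
    · obtain ⟨τ, a1, a2, a3⟩ := rm' l (Finset.mem_insert_self _ _) P' ol
      exact ⟨τ, a1, a2, by rw [Pi.add_apply, a3, D.ker _ (Wr.inert_hc h2 kd.iq ol (fun d => nq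
        (Nat.primeFactors_prod pr ▸ Nat.mem_primeFactors.2 ⟨ol.1, d, c0.ne'⟩)) a1 a2), zero_add]⟩
    · obtain ⟨τ, a1, a2, a3⟩ := rm l a P' ol
      exact ⟨τ, a1, a2, by rw [Pi.add_apply, a3, D'.ker _ (Wr.inert_hc h2 kd.iq ol (fun d => nq
        ((Nat.prime_dvd_prime_iff_eq ol.1 o'.1).1 d ▸ a)) a1 a2), add_zero]⟩
  · rw [Pi.add_apply, un' p a, add_sub_cancel]

end Vale.Agent.P014Y.F.Pt

namespace Vale.Agent.P014Y.Md

open Vale.Agent.P014U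
open P004K P004R
open P004F.Pt (Dh fx_mul fx_inv)
open P014Y.F (Crv Fld)
open P014Y.F.Pt (N1 twr2 fx_pw)
open Tp (Lz)
open Mu Mu.Tv

namespace Tv

variable {e : Crv} (b : Fld e)

theorem fx_det [Pp] {e : Crv} {g : GQ} (h : (rb e g).det = 1) : Fx {1} pp g := fun y hy => by
  obtain ⟨i, rfl⟩ := P022K.G2.pw_ex (p := pp) hy
  rw [map_pow, P022K.G2.mem_Gz'.1 ((P022K.G2.om_eq_one _).1
    ((congrFun (Cp.dt_ab _) g).symm.trans h))]

/-- trace zero in every coset -/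
def Tk : Prop := ∀ n : ℕ, ∀ h ∈ b.Γ, Fx {1} (pp ^ (n + 1)) h →
  ∃ k ∈ b.Γ, Fx (N1 b.j) (pp ^ (n + 1)) k ∧ (rb e (h * k)).trace = 0

/-- images of exponent eight -/
theorem tk8 (h8 : ∀ g, rb e g ^ 8 = 1) (h4 : ∃ g, (rb e g).det = 1 ∧ (rb e g).trace = 0) : Tk b :=
  fun n h m f => by
    obtain ⟨g, g1, g2⟩ := h4
    obtain ⟨x, mx, k⟩ := b.onto g
    have k' : rb e x = rb e g := congrArg (Matrix.map · PadicInt.toZMod) k
    have mk := mul_mem (inv_mem m) mx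
    refine ⟨_, pow_mem mk _, fx_pw mk (fx_mul (fx_inv fun y hy => f y (by
      rw [pow_succ', pow_mul, Set.mem_singleton_iff.1 hy, one_pow]; rfl)) (fx_det (k' ▸ g1))) n, ?_⟩
    rw [map_mul, map_pow, pow_eq_pow_mod _ (h8 _), show (pp ^ 2) ^ (n + 1) % 8 = 1 by
      rw [Nat.pow_mod, show pp ^ 2 % 8 = 1 from rfl, one_pow]; rfl, pow_one, ← map_mul,
      mul_inv_cancel_left, k', g2]

theorem tk_sur (su : Top.Sur e.par.disc) : Tk b := fun n h _ _ => ex_k b su _ h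

/-- **the tower with prescribed values** -/
theorem twp (r1 : RC1) (r2 : RC2) (r3 : RC3) (tk : Tk b) (k : ℕ) (Q : Finset ℕ)
    (P : ℕ → Ideal (𝓞 Qb)) (σ : ℕ → GQ) (v : ℕ → ZMod (3 * 3 ^ k))
    (hQ : ∀ q ∈ Q, Gt b (k + 2) (e.S.toFinset ∪ b.δ'.primeFactors ∪ Finset.range 18) q ∧
      Ov q (P q) ∧ Fb q (P q) (σ q)) :
    ∃ (c : ℕ) (χ : GQ → ZMod (3 * 3 ^ k)), Lz b k c χ ∧ (∀ q ∈ Q, q ∣ c ∧ χ (σ q) = v q) ∧
      c.primeFactors.card ≤ Q.card + 2 ∧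
      ∀ q : ℕ, q.Prime → q ∣ c → Gt b (k + 1) ∅ q ∧ (q ∈ Q ∨ Tz (rb e) q) := by
  classical
  have out (q) (m : q ∈ Q) : q ∉ e.S ∧ ¬ q ∣ b.δ' ∧ 17 < q := by
    have := (hQ q m).1.nE
    simp only [Finset.mem_union, not_or, List.mem_toFinset, Finset.mem_range] at this
    exact ⟨this.1.1, fun d => this.1.2 (Nat.mem_primeFactors.2 ⟨(hQ q m).1.pr, d, b.pos.ne'⟩),
      by omega⟩
  have md (q) (m : q ∈ Q) : q ≡ 1 [MOD 3 ^ (k + 1)] :=
    (hQ q m).1.md.of_dvd (pow_dvd_pow 3 (k + 1).le_succ)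
  obtain ⟨R, χ, sub, cd, hR, D, rm, un⟩ : ∃ (R : Finset ℕ) (χ : GQ → ZMod (3 * 3 ^ k)), Q ⊆ R ∧
      R.card = Q.card + 2 ∧ (∀ q ∈ R, q ∉ Q → q ∉ Finset.range 18 ∧ q ∉ e.S.toFinset ∧ ¬ q ∣ b.δ' ∧
        q % pp ^ (k + 1) = 1 ∧ ∃ P ψ, Ov q P ∧ ψ ∈ b.Γ ∧ Fb q P ψ ∧ (rb e ψ).trace = 0) ∧
      Dh b.j (∏ l ∈ R, l) χ ∧ (∀ l ∈ R, ∀ P', Ov l P' → ∃ τ ∈ b.Γ, Inert P' τ ∧ χ τ = 1) ∧
      ∀ p ∈ e.S.toFinset ∪ Q, χ (if p ∈ e.S then b.φ p else σ p) = if p ∈ e.S then 1 else v p := by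
    revert v
    rw [← pow_succ' 3 k]
    exact fun v => twr2 (n := k) r1 r2 r3 b.kd (P := fun p => if p ∈ e.S then e.P p else P p)
      (fun p m => by
        split_ifs with a
        · exact ⟨e.ov p a, b.le p a, b.ch.frb p a⟩
        · have m := (Finset.mem_union.1 m).resolve_left (mt List.mem_toFinset.1 a)
          exact ⟨(hQ p m).2.1, (hQ p m).1.sq _ (hQ p m).2.1, (hQ p m).2.2⟩)
      (List.mem_toFinset.2 e.pm) _
      (fun l m => ⟨(hQ l m).1.pr, mt List.mem_toFinset.1 (out l m).1,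
        Eq.trans (md l m) (Nat.mod_eq_of_lt (F.Pt.one_lt_pow' k)), (hQ l m).1.sq⟩)
      (U := (rb e).ker) (Cp.ker_open _) (G := fun g => (rb e g).trace = 0)
      (fun g u m t => by rwa [map_mul, show rb e u = 1 from m, mul_one]) (tk k) _
  have hT : ∀ l ∈ R, (l.Prime ∧ l ∉ e.S ∧ ¬ l ∣ b.δ' ∧ 17 < l ∧ Sq b.Γ l) ∧
      l ≡ 1 [MOD 3 ^ (k + 1)] ∧ (l ∈ Q ∨ Tz (rb e) l) := fun l a => by
    by_cases m : l ∈ Q
    · exact ⟨⟨(hQ l m).1.pr, (out l m).1, (out l m).2.1, (out l m).2.2, (hQ l m).1.sq⟩, md l m, .inl m⟩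
    · obtain ⟨a1, a2, a3, a4, P', ψ, o, m', f, t⟩ := hR l a m
      have a2 := mt List.mem_toFinset.2 a2
      exact ⟨⟨o.1, a2, a3, by rw [Finset.mem_range] at a1; omega,
        fun P' o' => Wr.dec_gk b.kd o (e.ne_two a2) a3 f m' o'⟩,
        a4.trans (Nat.mod_eq_of_lt (F.Pt.one_lt_pow' k)).symm, .inr (tz o a2 f t)⟩
  have L := lz b r1 r2 (Finset.card_pos.1 (by omega)) (fun l a => (hT l a).1) D rm fun p m => by
    have := un p (Finset.mem_union_left _ (List.mem_toFinset.2 m))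
    rw [if_pos m, if_pos m] at this
    exact this ▸ isUnit_one
  have pf := Nat.primeFactors_prod fun l a => (hT l a).1.1
  refine ⟨_, χ, L, fun l a => ⟨Finset.dvd_prod_of_mem _ (sub a), ?_⟩, pf.symm ▸ cd.le, fun l hl d => ?_⟩
  · have := un l (Finset.mem_union_right _ a)
    rwa [if_neg (out l a).1, if_neg (out l a).1] at this
  · obtain ⟨a1, a2, a3⟩ := hT l (pf ▸ Nat.mem_primeFactors.2 ⟨hl, d, L.sq.ne_zero⟩)
    exact ⟨⟨hl, Finset.notMem_empty _, a2, a1.2.2.2.2⟩, a3⟩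

end Tv

end Vale.Agent.P014Y.Md
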